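import Vale.Agent.P274.Surface.Holo
import Mathlib.Analysis.Calculus.ContDiff.FiniteDimension

/-!
Holomorphic maps of several variables are infinitely differentiable.
-/

open Filter Metric Set Function Topology

namespace Vale.Agent.P274.Full.PatchAux

variable {X Y : Type*} [NormedAddCommGroup X] [NormedSpace ℂ X] [FiniteDimensional ℂ X]
  [NormedAddCommGroup Y] [NormedSpace ℂ Y] [FiniteDimensional ℂ Y]

/-- A directional derivative of a holomorphic map is holomorphic. -/
theorem differentiableOn_fderiv_apply {f : X → Y} {U : Set X} (hU : IsOpen U)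
    (hf : DifferentiableOn ℂ f U) (v : X) :
    DifferentiableOn ℂ (fun z => fderiv ℂ f z v) U := by
  let _ : NormedSpace ℝ X := NormedSpace.restrictScalars ℝ ℂ X
  have : ProperSpace X := FiniteDimensional.proper ℂ X
  set t : ℕ → ℂ := fun j => (((1 : ℝ) / (j + 1) : ℝ) : ℂ) with ht
  have htn : ∀ j, ‖t j‖ = 1 / (j + 1) := fun j => by
    rw [ht, Complex.norm_real, Real.norm_eq_abs, abs_of_pos (by positivity)]
  have ht0 : Tendsto (fun j => ‖t j‖ * ‖v‖) atTop (𝓝 0) := by
    simp only [htn]
    simpa using tendsto_one_div_add_atTop_nhds_zero_nat.mul_const ‖v‖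
  have hmem : ∀ z ∈ U, ∃ r > 0, closedBall z r ⊆ U ∧
      ∀ᶠ j in atTop, ∀ y ∈ closedBall z (r / 2), y + t j • v ∈ closedBall z r := by
    intro z hz
    obtain ⟨r, hr, hrU⟩ := Metric.nhds_basis_closedBall.mem_iff.1 (hU.mem_nhds hz)
    refine ⟨r, hr, hrU, ?_⟩
    filter_upwards [ht0.eventually (Iio_mem_nhds (half_pos hr))] with j hj y hy
    rw [mem_closedBall, dist_eq_norm] at hy ⊢
    rw [add_sub_right_comm]
    refine (norm_add_le _ _).trans ?_
    rw [norm_smul]
    have : ‖t j‖ * ‖v‖ < r / 2 := hj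
    linarith
  refine differentiableOn_of_tendsto (F := fun j z => (t j)⁻¹ • (f (z + t j • v) - f z)) hU ?_ ?_
  · rw [Metric.tendstoLocallyUniformlyOn_iff]
    intro ε hε z hz
    obtain ⟨r, hr, hrU, hev⟩ := hmem z hz
    have hu := (isCompact_closedBall z r).uniformContinuousOn_of_continuous
      ((Surface.continuousOn_fderiv hU hf).mono hrU)
    obtain ⟨δ, hδ, hδ'⟩ := Metric.uniformContinuousOn_iff.1 hu (ε / (‖v‖ + 1)) (by positivity)
    refine ⟨closedBall z (r / 2),
      mem_nhdsWithin_of_mem_nhds (closedBall_mem_nhds z (by positivity)), ?_⟩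
    filter_upwards [hev, ht0.eventually (Iio_mem_nhds hδ)] with j hj hjδ y hy
    set B := closedBall z r ∩ closedBall y (‖t j‖ * ‖v‖)
    have hyB : y ∈ B :=
      ⟨closedBall_subset_closedBall (by linarith) hy, mem_closedBall_self (by positivity)⟩
    have hy'B : y + t j • v ∈ B := ⟨hj y hy, by simp [dist_eq_norm, norm_smul]⟩
    have hb := Convex.norm_image_sub_le_of_norm_fderiv_le' (𝕜 := ℂ) (f := f)
      (φ := fderiv ℂ f y) (C := ε / (‖v‖ + 1)) (s := B) (x := y) (y := y + t j • v)
      (fun w hw => (hf w (hrU hw.1)).differentiableAt (hU.mem_nhds (hrU hw.1)))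
      (fun w hw => by
        rw [← dist_eq_norm]
        exact (hδ' w hw.1 y hyB.1 ((mem_closedBall.1 hw.2).trans_lt hjδ)).le)
      ((convex_closedBall _ _).inter (convex_closedBall _ _)) hyB hy'B
    simp only [add_sub_cancel_left, map_smul, norm_smul] at hb
    have htj : 0 < ‖t j‖ := by rw [htn]; positivity
    rw [dist_comm, dist_eq_norm]
    have e : (t j)⁻¹ • (f (y + t j • v) - f y) - fderiv ℂ f y v =
        (t j)⁻¹ • (f (y + t j • v) - f y - t j • fderiv ℂ f y v) := by
      rw [smul_sub (t j)⁻¹ _ (t j • _), inv_smul_smul₀ (norm_pos_iff.1 htj)]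
    rw [e, norm_smul, norm_inv, inv_mul_lt_iff₀ htj]
    refine hb.trans_lt ?_
    rw [div_mul_eq_mul_div, div_lt_iff₀ (by positivity)]
    nlinarith [mul_pos hε htj]
  · intro z hz
    obtain ⟨r, hr, hrU, hev⟩ := hmem z hz
    refine ⟨r / 2, by positivity, ?_⟩
    filter_upwards [hev] with j hj
    have h1 : MapsTo (fun y => y + t j • v) (ball z (r / 2)) U :=
      fun y hy => hrU (hj y (ball_subset_closedBall hy))
    exact ((hf.comp (differentiableOn_id.add_const _) h1).sub
      (hf.mono ((ball_subset_closedBall.trans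
        (closedBall_subset_closedBall (by linarith))).trans hrU))).const_smul _

/-- Holomorphic maps are smooth. -/
theorem contDiffOn_of_holo {f : X → Y} {U : Set X} (hU : IsOpen U)
    (hf : DifferentiableOn ℂ f U) (n : ℕ) : ContDiffOn ℂ n f U := by
  induction n generalizing f Y with
  | zero => exact contDiffOn_zero.2 hf.continuousOn
  | succ n ih =>
    rw [Nat.cast_succ, contDiffOn_succ_iff_fderiv_of_isOpen hU]
    refine ⟨hf, fun h => absurd h (by simp), ?_⟩
    exact contDiffOn_clm_apply.2 fun v => ih (differentiableOn_fderiv_apply hU hf v)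

end Vale.Agent.P274.Full.PatchAux
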