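import Vale.Agent.P274.Full.Defs
import Vale.Agent.P274.Full.SA.Basic
import Mathlib.Analysis.Normed.Module.FiniteDimension
import Mathlib.Topology.Algebra.Module.FiniteDimension

/-!
Linear coordinates of the model space, affine preimages of semialgebraic sets, boxes.
-/

open Filter Metric Set Function Topology

namespace Vale.Agent.P274.Full.PatchAux

noncomputable section

/-- Preimage by an affine map. -/
theorem _root_.Vale.Agent.P274.Full.SA.preimage_affine {ι κ : Type} [Fintype ι] [Fintype κ] {S : Set (κ → ℝ)} (h : SA S)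
    (A : (ι → ℝ) →ₗ[ℝ] (κ → ℝ)) (b : κ → ℝ) : SA {x : ι → ℝ | A x + b ∈ S} := by
  classical
  refine (h.preimage fun k => ∑ i, MvPolynomial.C (A (Pi.single i 1) k) * MvPolynomial.X i
    + MvPolynomial.C (b k)).congr fun x => ?_
  have e : A x + b = fun k => MvPolynomial.eval x
      (∑ i, MvPolynomial.C (A (Pi.single i 1) k) * MvPolynomial.X i + MvPolynomial.C (b k)) := by
    funext k
    simp only [map_add, map_sum, map_mul, MvPolynomial.eval_C, MvPolynomial.eval_X, Pi.add_apply]
    conv_lhs => rw [pi_eq_sum_univ' x, map_sum, Finset.sum_apply]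
    simp only [map_smul, Pi.smul_apply, smul_eq_mul]
    congr 1
    exact Finset.sum_congr rfl fun i _ => mul_comm _ _
  simp only [mem_ofPred_eq, e]

/-- An open box. -/
def box {ι : Type} [Fintype ι] (c : ι → ℝ) (ρ : ℝ) : Set (ι → ℝ) := {x | ∀ i, |x i - c i| < ρ}

theorem _root_.Vale.Agent.P274.Full.SA.box {ι : Type} [Fintype ι] (c : ι → ℝ) (ρ : ℝ) : SA (PatchAux.box c ρ) := by
  refine (SA.iInter fun i => (SA.lt (MvPolynomial.X i) (MvPolynomial.C (c i + ρ))).inter
    (SA.lt (MvPolynomial.C (c i - ρ)) (MvPolynomial.X i))).congr fun x => ?_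
  simp only [PatchAux.box, mem_ofPred_eq, mem_iInter, mem_inter_iff, MvPolynomial.eval_X,
    MvPolynomial.eval_C, abs_sub_lt_iff]
  exact forall_congr' fun i => by constructor <;> intro h <;> constructor <;> linarith [h.1, h.2]

theorem isOpen_box {ι : Type} [Fintype ι] (c : ι → ℝ) (ρ : ℝ) : IsOpen (box c ρ) := by
  rw [box, ofPred_forall]
  exact isOpen_iInter_of_finite fun i => isOpen_lt (by fun_prop) continuous_const

theorem box_eq_ball {ι : Type} [Fintype ι] (c : ι → ℝ) {ρ : ℝ} (hρ : 0 < ρ) :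
    box c ρ = ball c ρ := by
  ext x
  simp [box, dist_pi_lt_iff hρ, Real.dist_eq]

variable {m k : ℕ}

/-- The coordinates `rcMod` as a linear map. -/
def rcModL (m k : ℕ) : Mod m k →ₗ[ℝ] ((Fin m ⊕ Fin m) ⊕ (Fin k ⊕ Fin k) → ℝ) where
  toFun := rcMod
  map_add' p q := by funext i; rcases i with (i | i) | (i | i) <;> simp [rcMod, rc]
  map_smul' t p := by funext i; rcases i with (i | i) | (i | i) <;> simp [rcMod, rc]

/-- The point of the model space with given coordinates. -/
def unMod (y : (Fin m ⊕ Fin m) ⊕ (Fin k ⊕ Fin k) → ℝ) : Mod m k :=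
  (WithLp.toLp 2 fun i => ⟨y (.inl (.inl i)), y (.inl (.inr i))⟩,
    WithLp.toLp 2 fun i => ⟨y (.inr (.inl i)), y (.inr (.inr i))⟩)

theorem unMod_rcMod (p : Mod m k) : unMod (rcMod p) = p := by
  refine Prod.ext ?_ ?_ <;> refine PiLp.ext fun i => ?_ <;>
    apply Complex.ext <;> simp [unMod, rcMod, rc]

theorem rcMod_unMod (y : (Fin m ⊕ Fin m) ⊕ (Fin k ⊕ Fin k) → ℝ) :
    rcMod (unMod y) = y := by
  funext i; rcases i with (i | i) | (i | i) <;> simp [unMod, rcMod, rc]

/-- The coordinates as a linear equivalence. -/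
def rcModE (m k : ℕ) : Mod m k ≃ₗ[ℝ] ((Fin m ⊕ Fin m) ⊕ (Fin k ⊕ Fin k) → ℝ) :=
  { rcModL m k with
    invFun := unMod
    left_inv := unMod_rcMod
    right_inv := rcMod_unMod }

@[simp] theorem rcModE_apply (p : Mod m k) : rcModE m k p = rcMod p := rfl

/-- The renumbering of graph coordinates as model coordinates. -/
def graphEquiv (m k : ℕ) :
    (((Fin m ⊕ Fin m) ⊕ Fin k) ⊕ Fin k) ≃ ((Fin m ⊕ Fin m) ⊕ (Fin k ⊕ Fin k)) :=
  Equiv.sumAssoc _ _ _

/-- Graph coordinates of a point of the model space. -/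
def rcGraph (p : Mod m k) : (((Fin m ⊕ Fin m) ⊕ Fin k) ⊕ Fin k) → ℝ :=
  rcMod p ∘ graphEquiv m k

theorem rcGraph_eq (p : Mod m k) :
    rcGraph p = Sum.elim (rcBase (p.1, rv p.2)) fun i => iv p.2 i := by
  funext i; rcases i with ((i | i) | i) | i <;> simp [rcGraph, graphEquiv, rcMod, rcBase, rv, iv, rc]

theorem rv_mkC (u v : Rn k) : rv (mkC u v) = u := by
  refine PiLp.ext fun i => ?_; simp [rv, mkC]

theorem iv_mkC (u v : Rn k) : iv (mkC u v) = v := by
  refine PiLp.ext fun i => ?_; simp [iv, mkC]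

theorem mkC_rv_iv (w : Cn k) : mkC (rv w) (iv w) = w := by
  refine PiLp.ext fun i => ?_; apply Complex.ext <;> simp [rv, iv, mkC]

theorem rcGraph_lift (h : Cn m × Rn k → Rn k) (x : Cn m × Rn k) :
    rcGraph (lift h x 0) = Sum.elim (rcBase x) fun i => h x i := by
  rw [rcGraph_eq]
  simp [lift, rv_mkC, iv_mkC]

theorem rcBase_injective : Injective (rcBase : Cn m × Rn k → _) := by
  intro x y h
  refine Prod.ext (PiLp.ext fun i => Complex.ext ?_ ?_) (PiLp.ext fun i => ?_)
  · simpa [rcBase, rc] using congrFun h (.inl (.inl i))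
  · simpa [rcBase, rc] using congrFun h (.inl (.inr i))
  · simpa [rcBase] using congrFun h (.inr i)

/-- The coordinates `rcBase` as a linear map. -/
def rcBaseL (m k : ℕ) : Cn m × Rn k →ₗ[ℝ] ((Fin m ⊕ Fin m) ⊕ Fin k → ℝ) where
  toFun := rcBase
  map_add' p q := by funext i; rcases i with (i | i) | i <;> simp [rcBase, rc]
  map_smul' t p := by funext i; rcases i with (i | i) | i <;> simp [rcBase, rc]

@[simp] theorem rcBaseL_apply (x : Cn m × Rn k) : rcBaseL m k x = rcBase x := rfl

theorem continuous_rcBase : Continuous (rcBase : Cn m × Rn k → _) :=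
  (rcBaseL m k).continuous_of_finiteDimensional

theorem continuous_rcMod : Continuous (rcMod : Mod m k → _) :=
  (rcModL m k).continuous_of_finiteDimensional

/-- Small boxes of an injective linear coordinate map are small neighbourhoods. -/
theorem exists_box_subset {E : Type*} [NormedAddCommGroup E] [NormedSpace ℝ E]
    [FiniteDimensional ℝ E] {ι : Type} [Fintype ι] (L : E →ₗ[ℝ] (ι → ℝ)) (hL : Injective L)
    (c : E) {V : Set E} (hV : V ∈ 𝓝 c) : ∃ ρ > 0, L ⁻¹' box (L c) ρ ⊆ V := by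
  obtain ⟨K, hK, hLK⟩ := L.exists_antilipschitzWith (LinearMap.ker_eq_bot.2 hL)
  obtain ⟨r, hr, hrV⟩ := Metric.mem_nhds_iff.1 hV
  have hK' : (0 : ℝ) < K := by exact_mod_cast hK
  refine ⟨r / K, by positivity, fun x hx => hrV (mem_ball.2 ?_)⟩
  rw [mem_preimage, box_eq_ball _ (by positivity), mem_ball] at hx
  calc dist x c ≤ K * dist (L x) (L c) := hLK.le_mul_dist x c
    _ < K * (r / K) := mul_lt_mul_of_pos_left hx hK'
    _ = r := by field_simp

end

end Vale.Agent.P274.Full.PatchAux
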