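import Mathlib.Analysis.Calculus.ContDiff.RCLike
import Mathlib.Analysis.Calculus.Deriv.MeanValue
import Mathlib.Analysis.Calculus.FDeriv.Symmetric
import Mathlib.Analysis.Normed.Module.FiniteDimension
import Mathlib.Analysis.Calculus.Deriv.Slope

/-!
A quadratic strict maximum makes all nearby critical points of small perturbations maxima.
-/

open Filter Metric Set Function Topology

namespace Vale.Agent.P274.Full.PatchAux

noncomputable section

variable {E F : Type*} [NormedAddCommGroup E] [NormedSpace ℝ E] [FiniteDimensional ℝ E]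
  [NormedAddCommGroup F] [NormedSpace ℝ F]

/-- The second derivative at a quadratic strict maximum is negative definite. -/
theorem second_deriv_le {g : E → ℝ} {c : ℝ} {H : E →L[ℝ] E →L[ℝ] ℝ}
    (hd : ∀ᶠ v in 𝓝 (0 : E), DifferentiableAt ℝ g v) (hH : HasFDerivAt (fderiv ℝ g) H 0)
    (hc : 0 ≤ c) (hmax : ∀ᶠ v in 𝓝 (0 : E), g v ≤ g 0 - c * ‖v‖ ^ 2) (v : E) :
    H v v ≤ -(2 * c) * ‖v‖ ^ 2 := by
  have hloc : IsLocalMax g 0 := hmax.mono fun w hw => hw.trans (by nlinarith [sq_nonneg ‖w‖])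
  have h0 : fderiv ℝ g 0 = 0 := hloc.fderiv_eq_zero
  by_contra hcon
  rw [not_le] at hcon
  set s : ℝ → ℝ := fun t => g (t • v) + c * ‖v‖ ^ 2 * t ^ 2
  set ds : ℝ → ℝ := fun t => fderiv ℝ g (t • v) v + c * ‖v‖ ^ 2 * (2 * t)
  have hsm : HasDerivAt (fun t : ℝ => t • v) v 0 := by
    simpa using (hasDerivAt_id (0 : ℝ)).smul_const v
  have hline : Tendsto (fun t : ℝ => t • v) (𝓝 0) (𝓝 0) := by
    simpa using hsm.continuousAt.tendsto
  have hds : HasDerivAt ds (H v v + c * ‖v‖ ^ 2 * 2) 0 := by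
    have hA : HasFDerivAt (fun w : E => fderiv ℝ g w v)
        ((ContinuousLinearMap.apply ℝ ℝ v).comp H) 0 :=
      (ContinuousLinearMap.apply ℝ ℝ v).hasFDerivAt.comp (0 : E) hH
    have h2 : HasDerivAt (fun t : ℝ => fderiv ℝ g (t • v) v) (H v v) 0 :=
      hA.comp_hasDerivAt_of_eq 0 hsm (zero_smul ℝ v).symm
    have h3 := h2.add (((hasDerivAt_id (0 : ℝ)).const_mul 2).const_mul (c * ‖v‖ ^ 2))
    simpa [ds, Function.comp_def, Pi.add_def] using h3
  have hd0 : 0 < H v v + c * ‖v‖ ^ 2 * 2 := by linarith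
  have hds0 : ds 0 = 0 := by simp [ds, h0]
  have hpos : ∀ᶠ t in 𝓝[>] (0 : ℝ), 0 < ds t := by
    have h1 := (hasDerivAt_iff_tendsto_slope.1 hds).mono_left
      (nhdsWithin_mono _ fun x (hx : (0 : ℝ) < x) => hx.ne')
    filter_upwards [h1.eventually (Ioi_mem_nhds hd0), self_mem_nhdsWithin] with t ht ht0
    have ht0' : (0 : ℝ) < t := ht0
    simp only [slope, hds0, vsub_eq_sub, sub_zero, smul_eq_mul, mem_Ioi] at ht
    exact (pos_iff_pos_of_mul_pos (by rwa [inv_mul_eq_div, div_eq_mul_inv] at ht)).2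
      (inv_pos.2 ht0')
  obtain ⟨u, hu0, hu⟩ := mem_nhdsGT_iff_exists_Ioo_subset.1 hpos
  obtain ⟨w, hw, hgood⟩ := Metric.eventually_nhds_iff.1 (hline.eventually (hd.and hmax))
  set η := min u w / 2 with hη
  have hη0 : 0 < η := half_pos (lt_min hu0 hw)
  have hηu : η < u := by linarith [min_le_left u w, (mem_Ioi.1 hu0)]
  have hηw : η < w := by linarith [min_le_right u w]
  have hsd : ∀ t ∈ Icc 0 η, HasDerivAt s (ds t) t := by
    intro t ht
    have hdt := (hgood (show dist t 0 < w by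
      rw [dist_zero_right, Real.norm_eq_abs, abs_of_nonneg ht.1]; linarith [ht.2])).1
    have h2 := hdt.hasFDerivAt.comp_hasDerivAt t ((hasDerivAt_id t).smul_const v)
    have h3 := h2.add ((hasDerivAt_pow 2 t).const_mul (c * ‖v‖ ^ 2))
    simpa [s, ds, Function.comp_def, Pi.add_def] using h3
  have hmono : StrictMonoOn s (Icc 0 η) := by
    refine strictMonoOn_of_deriv_pos (convex_Icc 0 η)
      (fun t ht => (hsd t ht).continuousAt.continuousWithinAt) fun t ht => ?_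
    rw [interior_Icc] at ht
    rw [(hsd t ⟨ht.1.le, ht.2.le⟩).deriv]
    exact hu ⟨ht.1, ht.2.trans hηu⟩
  have hlt := hmono (left_mem_Icc.2 hη0.le) (right_mem_Icc.2 hη0.le) hη0
  have hle := (hgood (show dist η 0 < w by
    rw [dist_zero_right, Real.norm_eq_abs, abs_of_pos hη0]; exact hηw)).2
  simp only [s, zero_smul, norm_smul, Real.norm_eq_abs, abs_of_pos hη0] at hlt hle
  nlinarith [hlt, hle]

/-- Near a quadratic strict maximum, a critical point of a small perturbation is a maximum. -/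
theorem critical_is_max {S : Set E} (hS : IsOpen S) (h0 : (0 : E) ∈ S) {g : E → ℝ} {γ : E → F}
    (hg : ContDiffOn ℝ 2 g S) (hγ : ContDiffOn ℝ 2 γ S) {c : ℝ} (hc : 0 < c)
    (hmax : ∀ᶠ v in 𝓝 (0 : E), g v ≤ g 0 - c * ‖v‖ ^ 2) :
    ∃ r > 0, ∃ η > 0, ball (0 : E) r ⊆ S ∧ ∀ L : F →L[ℝ] ℝ, ‖L‖ < η → ∀ x ∈ ball (0 : E) r,
      fderiv ℝ g x + L.comp (fderiv ℝ γ x) = 0 →
        ∀ x' ∈ ball (0 : E) r, g x' + L (γ x') ≤ g x + L (γ x) := by
  have hS0 := hS.mem_nhds h0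
  have h1 : (1 : WithTop ℕ∞) + 1 ≤ 2 := by norm_num
  have hne : (1 : WithTop ℕ∞) ≠ 0 := one_ne_zero
  have hgF := (hg.contDiffAt hS0).fderiv_right (m := 1) h1
  have hγF := (hγ.contDiffAt hS0).fderiv_right (m := 1) h1
  set H := fderiv ℝ (fderiv ℝ g) 0
  have hH : HasStrictFDerivAt (fderiv ℝ g) H 0 :=
    hgF.hasStrictFDerivAt' (hgF.differentiableAt hne).hasFDerivAt hne
  have hγS := hγF.hasStrictFDerivAt' (hγF.differentiableAt hne).hasFDerivAt hne
  obtain ⟨K, t, ht, hK⟩ := hγS.exists_lipschitzOnWith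
  have hHn := second_deriv_le (eventually_of_mem hS0 fun v hv =>
    (hg.contDiffAt (hS.mem_nhds hv)).differentiableAt two_ne_zero) hH.hasFDerivAt hc.le hmax
  have hsd := hH.isLittleO.bound (half_pos hc)
  rw [nhds_prod_eq] at hsd
  obtain ⟨U₁, hU₁, U₂, hU₂, hU⟩ := Filter.mem_prod_iff.1 hsd
  obtain ⟨r, hr, hrs⟩ := Metric.mem_nhds_iff.1 (inter_mem (inter_mem hS0 ht) (inter_mem hU₁ hU₂))
  refine ⟨r, hr, c / (K + 1), div_pos hc (by positivity), fun x hx => (hrs hx).1.1,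
    fun L hL x hx hcrit x' hx' => ?_⟩
  set d := x' - x with hd
  set G : E → ℝ := fun y => g y + L (γ y) with hG
  have hGd : ∀ y ∈ ball (0 : E) r, HasFDerivAt G (fderiv ℝ g y + L.comp (fderiv ℝ γ y)) y := by
    intro y hy
    have hyS := hS.mem_nhds (hrs hy).1.1
    exact ((hg.contDiffAt hyS).differentiableAt two_ne_zero).hasFDerivAt.add
      (L.hasFDerivAt.comp y ((hγ.contDiffAt hyS).differentiableAt two_ne_zero).hasFDerivAt)
  have hseg : ∀ s ∈ Icc (0 : ℝ) 1, x + s • d ∈ ball (0 : E) r := by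
    intro s hs
    have := (convex_ball (0 : E) r).add_smul_sub_mem hx hx' hs
    exact this
  have hφ : ∀ s ∈ Icc (0 : ℝ) 1, HasDerivAt (fun s => G (x + s • d))
      ((fderiv ℝ g (x + s • d) + L.comp (fderiv ℝ γ (x + s • d))) d) s := by
    intro s hs
    have hl : HasDerivAt (fun s : ℝ => x + s • d) d s := by
      simpa using ((hasDerivAt_id s).smul_const d).const_add x
    exact HasFDerivAt.comp_hasDerivAt (f := fun s : ℝ => x + s • d) s (hGd _ (hseg s hs)) hl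
  obtain ⟨θ, hθ, hθeq⟩ := exists_hasDerivAt_eq_slope (fun s => G (x + s • d)) _ one_pos
    (fun s hs => (hφ s hs).continuousAt.continuousWithinAt)
    (fun s hs => hφ s ⟨hs.1.le, hs.2.le⟩)
  simp only [sub_zero, div_one, one_smul, zero_smul, add_zero] at hθeq
  rw [show x + d = x' by simp [hd]] at hθeq
  set ξ := x + θ • d with hξ
  have hξb : ξ ∈ ball (0 : E) r := hseg θ ⟨hθ.1.le, hθ.2.le⟩
  set w := θ • d with hw
  have hξx : ξ - x = w := by simp [hξ, hw]
  have e1 : ‖fderiv ℝ g ξ - fderiv ℝ g x - H w‖ ≤ c / 2 * ‖w‖ := by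
    have := hU (mk_mem_prod (hrs hξb).2.1 (hrs hx).2.2)
    simp only [mem_ofPred_eq] at this
    rwa [hξx] at this
  have e2 : ‖fderiv ℝ γ ξ - fderiv ℝ γ x‖ ≤ K * ‖w‖ := by
    rw [← hξx]; exact hK.norm_sub_le (hrs hξb).1.2 (hrs hx).1.2
  have a1 : (fderiv ℝ g ξ - fderiv ℝ g x) w ≤ -(2 * c) * ‖w‖ ^ 2 + c / 2 * ‖w‖ ^ 2 := by
    have h := (le_abs_self _).trans (((fderiv ℝ g ξ - fderiv ℝ g x - H w).le_opNorm w).trans
      (mul_le_mul_of_nonneg_right e1 (norm_nonneg _)))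
    simp only [_root_.sub_apply] at h ⊢
    nlinarith [hHn w]
  have a2 : L ((fderiv ℝ γ ξ - fderiv ℝ γ x) w) ≤ c * ‖w‖ ^ 2 := by
    refine (le_abs_self _).trans ((L.le_opNorm _).trans ?_)
    have hb : ‖(fderiv ℝ γ ξ - fderiv ℝ γ x) w‖ ≤ K * ‖w‖ * ‖w‖ :=
      ((fderiv ℝ γ ξ - fderiv ℝ γ x).le_opNorm w).trans
        (mul_le_mul_of_nonneg_right e2 (norm_nonneg _))
    calc ‖L‖ * ‖(fderiv ℝ γ ξ - fderiv ℝ γ x) w‖ ≤ c / (K + 1) * (K * ‖w‖ * ‖w‖) :=
          mul_le_mul hL.le hb (norm_nonneg _) (by positivity)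
      _ ≤ c * ‖w‖ ^ 2 := by
          rw [div_mul_eq_mul_div, div_le_iff₀ (by positivity)]
          nlinarith [mul_nonneg hc.le (sq_nonneg ‖w‖), K.coe_nonneg]
  have hz : (fderiv ℝ g x + L.comp (fderiv ℝ γ x)) w = 0 := by rw [hcrit]; rfl
  simp only [_root_.add_apply, _root_.sub_apply, ContinuousLinearMap.comp_apply, map_sub]
    at a1 a2 hz
  have hval : θ * (G x' - G x) ≤ 0 := by
    rw [← hθeq, ← smul_eq_mul, ← map_smul, ← hw]
    simp only [_root_.add_apply, ContinuousLinearMap.comp_apply]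
    nlinarith [mul_nonneg hc.le (sq_nonneg ‖w‖)]
  have : G x' - G x ≤ 0 := by nlinarith [hθ.1]
  simp only [hG] at this
  linarith

end

end Vale.Agent.P274.Full.PatchAux
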