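import Vale.Agent.P274.Full.Patch.Peak
import Vale.Agent.P274.Basic

/-!
Every point of the domain has a chart, and every orbit accumulating at a peak point tends to it
uniformly on compact sets.
-/

open Filter Metric Set Function Topology

namespace Vale.Agent.P274.Full.PatchAux

noncomputable section

variable {N n : ℕ} {D : CDom N}

/-- The points of `U` with a chart of dimension `n`. -/
def reg (D : CDom N) (n : ℕ) : Set (Cn N) := {z | z ∈ D.U ∧ ∃ φ : Chart D n 0, φ.ψ 0 = z}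

theorem chart_translate (φ : Chart D n 0) {x : Mod n 0} (hx : x ∈ φ.W) :
    ∃ φ' : Chart D n 0, φ'.ψ 0 = φ.ψ x := by
  refine ⟨{
    π := fun z => φ.π z - x
    ψ := fun y => φ.ψ (y + x)
    W := (fun y => y + x) ⁻¹' φ.W
    B := φ.B
    isOpen_W := φ.isOpen_W.preimage (by fun_prop)
    isOpen_B := φ.isOpen_B
    zero_mem := by simpa using hx
    diff_π := φ.diff_π.sub_const x
    diff_ψ := φ.diff_ψ.comp (differentiableOn_id.add_const x) fun y hy => hy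
    maps_ψ := fun y hy => φ.maps_ψ _ hy
    maps_π := fun z hz => by simpa using φ.maps_π z hz
    π_ψ := fun y hy => by simp [φ.π_ψ _ hy]
    ψ_π := fun z hz => by simp [φ.ψ_π z hz] }, by simp⟩

theorem centre_mem (φ : Chart D n 0) : φ.ψ 0 ∈ φ.B := (φ.maps_ψ 0 φ.zero_mem).2

theorem eventually_reg {z : Cn N} (hz : z ∈ reg D n) :
    ∀ᶠ z' in 𝓝 z, z' ∈ D.U → z' ∈ reg D n := by
  obtain ⟨hzU, φ, rfl⟩ := hz
  filter_upwards [φ.isOpen_B.mem_nhds (centre_mem φ)] with z' hz' hU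
  have hZ : z' ∈ D.Z := (D.mem_U_iff.1 hU).1
  obtain ⟨φ', hφ'⟩ := chart_translate φ (φ.maps_π z' ⟨hZ, hz'⟩)
  exact ⟨hU, φ', by rw [hφ', φ.ψ_π z' ⟨hZ, hz'⟩]⟩

theorem reg_act (g : D.G) {z : Cn N} (hz : z ∈ reg D n) : D.act g z ∈ reg D n := by
  obtain ⟨hzU, φ, hφ⟩ := hz
  obtain ⟨W₁, g₁, hW₁, hzW₁, hg₁, he₁⟩ := D.hol g z hzU
  have hgz : D.act g z ∈ D.U := D.maps g hzU
  obtain ⟨W₂, g₂, hW₂, hgzW₂, hg₂, he₂⟩ := D.hol_back g _ hgz
  set B₁ := φ.B ∩ W₁ ∩ D.O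
  set W' := φ.W ∩ (fun x => g₁ (φ.ψ x)) ⁻¹' (W₂ ∩ D.O) ∩ φ.ψ ⁻¹' (W₁ ∩ D.O)
  set B' := W₂ ∩ D.O ∩ g₂ ⁻¹' B₁
  have hWo : IsOpen W' := by
    have h0 : IsOpen (φ.W ∩ φ.ψ ⁻¹' (W₁ ∩ D.O)) :=
      φ.diff_ψ.continuousOn.isOpen_inter_preimage φ.isOpen_W (hW₁.inter D.isOpen_O)
    have h1 : ContinuousOn (fun x => g₁ (φ.ψ x)) (φ.W ∩ φ.ψ ⁻¹' (W₁ ∩ D.O)) :=
      hg₁.continuousOn.comp (φ.diff_ψ.continuousOn.mono inter_subset_left) fun x hx => hx.2.1
    have := h1.isOpen_inter_preimage h0 (hW₂.inter D.isOpen_O)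
    convert this using 1
    rw [inter_right_comm]
  have hBo : IsOpen B' :=
    (hg₂.continuousOn.mono inter_subset_left).isOpen_inter_preimage (hW₂.inter D.isOpen_O)
      ((φ.isOpen_B.inter hW₁).inter D.isOpen_O)
  have hψU : ∀ x ∈ W', φ.ψ x ∈ D.U := fun x hx =>
    D.mem_U_iff.2 ⟨(φ.maps_ψ x hx.1.1).1, hx.2.2⟩
  have hact : ∀ x ∈ W', g₁ (φ.ψ x) = D.act g (φ.ψ x) := fun x hx =>
    (he₁ ⟨hx.2.1, hψU x hx⟩).symm
  have hzO : z ∈ D.O := (D.mem_U_iff.1 hzU).2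
  have hcomp : ∀ x ∈ W', g₂ (g₁ (φ.ψ x)) = φ.ψ x := fun x hx => by
    have h2 : g₁ (φ.ψ x) ∈ W₂ := hx.1.2.1
    rw [hact x hx] at h2 ⊢
    rw [← he₂ ⟨h2, D.maps g (hψU x hx)⟩, D.back_act g _ (hψU x hx)]
  refine ⟨hgz, {
    π := fun y => φ.π (g₂ y)
    ψ := fun x => g₁ (φ.ψ x)
    W := W'
    B := B'
    isOpen_W := hWo
    isOpen_B := hBo
    zero_mem := by
      refine ⟨⟨φ.zero_mem, ?_⟩, ?_⟩
      · show g₁ (φ.ψ 0) ∈ W₂ ∩ D.O
        rw [hφ, ← he₁ ⟨hzW₁, hzU⟩]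
        exact ⟨hgzW₂, (D.mem_U_iff.1 hgz).2⟩
      · show φ.ψ 0 ∈ W₁ ∩ D.O
        rw [hφ]
        exact ⟨hzW₁, hzO⟩
    diff_π := φ.diff_π.comp (hg₂.mono fun y hy => hy.1.1) fun y hy => hy.2.1.1
    diff_ψ := hg₁.comp (φ.diff_ψ.mono fun x hx => hx.1.1) fun x hx => hx.2.1
    maps_ψ := fun x hx => by
      have hU : g₁ (φ.ψ x) ∈ D.U := hact x hx ▸ D.maps g (hψU x hx)
      refine ⟨(D.mem_U_iff.1 hU).1, hx.1.2, ?_⟩
      show g₂ (g₁ (φ.ψ x)) ∈ B₁
      rw [hcomp x hx]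
      exact ⟨⟨(φ.maps_ψ x hx.1.1).2, hx.2.1⟩, hx.2.2⟩
    maps_π := fun y hy => by
      have hyU : y ∈ D.U := D.mem_U_iff.2 ⟨hy.1, hy.2.1.2⟩
      have he : g₂ y = D.back g y := (he₂ ⟨hy.2.1.1, hyU⟩).symm
      have hbU : g₂ y ∈ D.U := he ▸ D.maps_back g hyU
      have hp := φ.ψ_π (g₂ y) ⟨(D.mem_U_iff.1 hbU).1, hy.2.2.1.1⟩
      refine ⟨⟨φ.maps_π _ ⟨(D.mem_U_iff.1 hbU).1, hy.2.2.1.1⟩, ?_⟩, ?_⟩
      · show g₁ (φ.ψ (φ.π (g₂ y))) ∈ W₂ ∩ D.O
        rw [hp, ← he₁ ⟨hy.2.2.1.2, hbU⟩, he, D.act_back g y hyU]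
        exact hy.2.1
      · show φ.ψ (φ.π (g₂ y)) ∈ W₁ ∩ D.O
        rw [hp]
        exact ⟨hy.2.2.1.2, hy.2.2.2⟩
    π_ψ := fun x hx => by
      show φ.π (g₂ (g₁ (φ.ψ x))) = x
      rw [hcomp x hx, φ.π_ψ x hx.1.1]
    ψ_π := fun y hy => by
      have hyU : y ∈ D.U := D.mem_U_iff.2 ⟨hy.1, hy.2.1.2⟩
      have he : g₂ y = D.back g y := (he₂ ⟨hy.2.1.1, hyU⟩).symm
      have hbU : g₂ y ∈ D.U := he ▸ D.maps_back g hyU
      rw [φ.ψ_π (g₂ y) ⟨(D.mem_U_iff.1 hbU).1, hy.2.2.1.1⟩, ← he₁ ⟨hy.2.2.1.2, hbU⟩, he,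
        D.act_back g y hyU] }, ?_⟩
  show g₁ (φ.ψ 0) = _
  rw [hφ]
  exact (he₁ ⟨hzW₁, hzU⟩).symm

theorem reg_of_act (g : D.G) {z : Cn N} (hzU : z ∈ D.U) (hz : D.act g z ∈ reg D n) :
    z ∈ reg D n := by
  obtain ⟨k, hk⟩ := D.inv g
  have := reg_act k hz
  rwa [hk (D.maps g hzU), D.back_act g z hzU] at this

section Peak

variable {P₀ P₁ : MvPolynomial (Fin N) ℂ} {e : ℝ} {a q : Cn N}

/-- The peak function along an orbit. -/
def fn (P₁ : MvPolynomial (Fin N) ℂ) (e : ℝ) (a q : Cn N) (g : ℕ → D.G) (j : ℕ) (z : Cn N) : ℂ :=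
  Complex.exp (pG P₁ e a q (D.act (g j) z))

variable {g : ℕ → D.G}

theorem holOn_fn (j : ℕ) : HolOn (fn P₁ e a q g j) D.U := by
  intro z hz
  obtain ⟨W, h, hW, hzW, hh, he⟩ := D.hol (g j) z hz
  exact ⟨W, fun y => Complex.exp (pG P₁ e a q (h y)), hW, hzW,
    ((differentiable_pG P₁ e a q).comp_differentiableOn hh).cexp,
    fun y hy => by simp only [fn, he hy]⟩

theorem norm_fn_le (he : 0 < e) (hq : IsPeak P₁ D e a q) (j : ℕ) {z : Cn N} (hz : z ∈ D.U) :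
    ‖fn P₁ e a q g j z‖ ≤ 1 := by
  rw [fn, Complex.norm_exp, Real.exp_le_one_iff]
  nlinarith [hq.re_le (subset_closure (D.maps (g j) hz)), sq_nonneg ‖D.act (g j) z - q‖]

theorem dist_act_lt (he : 0 < e) (hq : IsPeak P₁ D e a q) {ε : ℝ} (hε : 0 < ε) :
    ∃ δ > 0, ∀ j, ∀ z ∈ D.U, ‖fn P₁ e a q g j z - 1‖ < δ → dist q (D.act (g j) z) < ε := by
  refine ⟨1 - Real.exp (-(e * ε ^ 2)), ?_, fun j z hz hlt => ?_⟩
  · rw [gt_iff_lt, sub_pos, Real.exp_lt_one_iff]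
    have := mul_pos he (pow_pos hε 2); linarith
  rw [dist_comm, dist_eq_norm]
  by_contra hcon
  rw [not_lt] at hcon
  have h1 : ‖fn P₁ e a q g j z‖ ≤ Real.exp (-(e * ε ^ 2)) := by
    rw [fn, Complex.norm_exp]
    refine Real.exp_le_exp.2 ?_
    have := hq.re_le (subset_closure (D.maps (g j) hz))
    nlinarith [pow_le_pow_left₀ hε.le hcon 2]
  have h2 := norm_sub_norm_le (1 : ℂ) (fn P₁ e a q g j z)
  rw [norm_one, norm_sub_rev] at h2
  linarith

/-- Near the centre of a chart, limit one at one sequence forces limit one uniformly. -/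
theorem uniform_of_chart (he : 0 < e) (hq : IsPeak P₁ D e a q) (φ : Chart D n 0)
    (hU : φ.ψ 0 ∈ D.U) :
    ∃ r > 0, closedBall (0 : Mod n 0) r ⊆ φ.Uc ∧
      (Tendsto (fun j => fn P₁ e a q g j (φ.ψ 0)) atTop (𝓝 1) →
        TendstoUniformlyOn (fun j x => fn P₁ e a q g j (φ.ψ x)) (fun _ => 1) atTop
          (closedBall (0 : Mod n 0) r)) := by
  have hUc : IsOpen φ.Uc := by
    have : φ.Uc = φ.W ∩ φ.ψ ⁻¹' D.O := by
      ext x
      exact ⟨fun hx => ⟨hx.1, (D.mem_U_iff.1 hx.2).2⟩,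
        fun hx => ⟨hx.1, D.mem_U_iff.2 ⟨(φ.maps_ψ x hx.1).1, hx.2⟩⟩⟩
    rw [this]
    exact φ.diff_ψ.continuousOn.isOpen_inter_preimage φ.isOpen_W D.isOpen_O
  obtain ⟨R, hR, hball⟩ := Metric.isOpen_iff.1 hUc 0 ⟨φ.zero_mem, hU⟩
  refine ⟨R / 2, by positivity, (closedBall_subset_ball (by linarith)).trans hball, fun hc => ?_⟩
  set F : ℕ → Mod n 0 → ℂ := fun j x => fn P₁ e a q g j (φ.ψ x) with hF
  have hFd : ∀ j, DifferentiableOn ℂ (F j) (ball 0 R) := fun j =>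
    (holOn_fn j).comp_differentiableOn isOpen_ball
      (φ.diff_ψ.mono fun x hx => (hball hx).1) fun x hx => (hball hx).2
  have hF1 : ∀ j, ∀ x ∈ ball (0 : Mod n 0) R, ‖F j x‖ ≤ 1 := fun j x hx =>
    norm_fn_le he hq j (hball hx).2
  rw [Metric.tendstoUniformlyOn_iff]
  intro ε hε
  by_contra hcon
  rw [not_eventually] at hcon
  obtain ⟨s, hs, hsb⟩ := extraction_of_frequently_atTop hcon
  obtain ⟨s', hs', G, hGd, hG⟩ := montel (U := ball (0 : Mod n 0) R) isOpen_ball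
    (fun j => F (s j)) fun x hx => by
      obtain ⟨r', hr', hsub⟩ := Metric.isOpen_iff.1 isOpen_ball x hx
      exact ⟨r', hr', 1, Eventually.of_forall fun j =>
        ⟨(hFd _).mono hsub, fun y hy => hF1 _ y (hsub hy)⟩⟩
  have h0 : (0 : Mod n 0) ∈ ball (0 : Mod n 0) R := mem_ball_self hR
  have hG0 : G 0 = 1 := tendsto_nhds_unique (hG.tendsto_at h0)
    (hc.comp ((hs.comp hs').tendsto_atTop))
  have hGle : ∀ x ∈ ball (0 : Mod n 0) R, ‖G x‖ ≤ 1 := fun x hx =>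
    le_of_tendsto' (hG.tendsto_at hx).norm fun j => hF1 _ x hx
  have hGc := Complex.eqOn_of_isPreconnected_of_isMaxOn_norm (convex_ball _ _).isPreconnected
    isOpen_ball hGd h0 (fun x hx => by
      show ‖G x‖ ≤ ‖G 0‖
      rw [hG0, norm_one]; exact hGle x hx)
  have hu := (tendstoLocallyUniformlyOn_iff_tendstoUniformlyOn_of_compact
    (isCompact_closedBall (0 : Mod n 0) (R / 2))).1
      (hG.mono (closedBall_subset_ball (by linarith)))
  obtain ⟨j, hj⟩ := (Metric.tendstoUniformlyOn_iff.1 hu ε hε).exists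
  refine hsb (s' j) fun x hx => ?_
  have h := hj x hx
  rwa [hGc (closedBall_subset_ball (by linarith) hx), const_apply, hG0] at h

/-- The value at a limit point. -/
theorem tendsto_of_near (hE : Exc D n P₀) (he : 0 < e) (hq : IsPeak P₁ D e a q) {z : Cn N}
    (hz : z ∈ D.U) {b : ℕ → Cn N}
    (hb : ∀ j, b j ∈ D.U ∧ MvPolynomial.eval (fun i => b j i) P₀ ≠ 0)
    (hbz : Tendsto b atTop (𝓝 z))
    (hfb : Tendsto (fun j => fn P₁ e a q g j (b j)) atTop (𝓝 1)) :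
    Tendsto (fun j => fn P₁ e a q g j z) atTop (𝓝 1) := by
  have h := hE.equicont z b (fun j y => fn P₁ e a q g j y - fn P₁ e a q g j z) 2 hz hb hbz
    (fun j x hx => by
      obtain ⟨W, h, hW, hxW, hh, heq⟩ := holOn_fn (P₁ := P₁) (e := e) (a := a) (q := q) (g := g) j x hx
      exact ⟨W, fun y => h y - fn P₁ e a q g j z, hW, hxW, hh.sub_const _,
        fun y hy => by simp only [heq hy]⟩)
    (fun j y hy => (norm_sub_le _ _).trans
      (by linarith [norm_fn_le (g := g) he hq j hy, norm_fn_le (g := g) he hq j hz]))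
    (by simp)
  simpa using hfb.sub h

theorem exists_dense_near (hE : Exc D n P₀) {z : Cn N} (hz : z ∈ reg D n) :
    z ∈ closure {w | w ∈ D.U ∧ MvPolynomial.eval (fun i => w i) P₀ ≠ 0} := by
  obtain ⟨hzU, φ, rfl⟩ := hz
  exact hE.dense φ 0 ⟨φ.zero_mem, hzU⟩

/-- A point where the peak functions along the orbit tend to one uniformly nearby. -/
def Good (P₁ : MvPolynomial (Fin N) ℂ) (e : ℝ) (a q : Cn N) (n : ℕ) (g : ℕ → D.G)
    (z : Cn N) : Prop :=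
  z ∈ reg D n ∧ ∃ O ∈ 𝓝 z, TendstoUniformlyOn (fn P₁ e a q g) (fun _ => 1) atTop (O ∩ D.U)

theorem good_of_tendsto (hE : Exc D n P₀) (he : 0 < e) (hq : IsPeak P₁ D e a q)
    (hq0 : MvPolynomial.eval (fun i => q i) P₀ ≠ 0) {z : Cn N} (hz : z ∈ D.U)
    (hlim : Tendsto (fun j => fn P₁ e a q g j z) atTop (𝓝 1)) : Good P₁ e a q n g z := by
  have hact : Tendsto (fun j => D.act (g j) z) atTop (𝓝 q) := by
    refine Metric.tendsto_nhds.2 fun ε hε => ?_
    obtain ⟨δ, hδ, hd⟩ := dist_act_lt (g := g) he hq hε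
    filter_upwards [Metric.tendsto_nhds.1 hlim δ hδ] with j hj
    rw [dist_comm]
    exact hd j z hz (by rwa [← dist_eq_norm])
  have hne : ∀ᶠ y in 𝓝 q, MvPolynomial.eval (fun i => y i) P₀ ≠ 0 :=
    (continuous_pe P₀).continuousAt.eventually_ne hq0
  obtain ⟨j, hj⟩ := (hact.eventually hne).exists
  have hjU := D.maps (g j) hz
  have hreg : z ∈ reg D n := reg_of_act (g j) hz
    ⟨hjU, hE.chart _ (subset_closure hjU) (D.mem_U_iff.1 hjU).1 hj⟩
  obtain ⟨φ, hφ⟩ := hreg.2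
  obtain ⟨r, hr, hsub, hu⟩ := uniform_of_chart (g := g) he hq φ (hφ.symm ▸ hz)
  have hπ0 : φ.π z = 0 := by rw [← hφ, φ.π_ψ 0 φ.zero_mem]
  have hzB : z ∈ φ.B := hφ ▸ centre_mem φ
  refine ⟨hreg, φ.B ∩ φ.π ⁻¹' ball 0 r, inter_mem (φ.isOpen_B.mem_nhds hzB)
    ((φ.diff_π.continuousOn.continuousAt (φ.isOpen_B.mem_nhds hzB)).preimage_mem_nhds
      (hπ0.symm ▸ ball_mem_nhds _ hr)), ?_⟩
  rw [Metric.tendstoUniformlyOn_iff]
  intro ε hε
  filter_upwards [Metric.tendstoUniformlyOn_iff.1 (hu (hφ.symm ▸ hlim)) ε hε] with k hk y hy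
  have := hk (φ.π y) (ball_subset_closedBall hy.1.2)
  rwa [φ.ψ_π y ⟨(D.mem_U_iff.1 hy.2).1, hy.1.1⟩] at this

/-- Orbits tending to a peak point: every point has a chart and the maps tend to the point. -/
theorem orbit_uniform (hE : Exc D n P₀) (he : 0 < e) (hq : IsPeak P₁ D e a q)
    (hq0 : MvPolynomial.eval (fun i => q i) P₀ ≠ 0) {x : ℕ → Cn N} {x₀ : Cn N} (hx₀ : x₀ ∈ D.U)
    (hxU : ∀ j, x j ∈ D.U) (hx : Tendsto x atTop (𝓝 x₀))
    (hxq : Tendsto (fun j => D.act (g j) (x j)) atTop (𝓝 q)) :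
    (∀ z ∈ D.U, z ∈ reg D n) ∧ ∀ L ⊆ D.U, IsCompact L →
      TendstoUniformlyOn (fun j => D.act (g j)) (fun _ => q) atTop L := by
  obtain ⟨w₀, hw₀⟩ := hE.nontrivial
  -- nearby points with the same values off the exceptional set
  have hne : ∀ᶠ y in 𝓝 q, MvPolynomial.eval (fun i => y i) P₀ ≠ 0 :=
    (continuous_pe P₀).continuousAt.eventually_ne hq0
  have hfx : Tendsto (fun j => fn P₁ e a q g j (x j)) atTop (𝓝 1) := by
    have h1 : ContinuousAt (fun y => Complex.exp (pG P₁ e a q y)) q :=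
      ((differentiable_pG P₁ e a q).cexp.continuous).continuousAt
    simpa [fn, pG_self, Function.comp_def] using h1.tendsto.comp hxq
  have hnear : ∀ j, ∃ b, (b ∈ D.U ∧ MvPolynomial.eval (fun i => b i) P₀ ≠ 0) ∧
      (MvPolynomial.eval (fun i => D.act (g j) (x j) i) P₀ ≠ 0 → dist b (x j) < 1 / (j + 1) ∧
        dist (fn P₁ e a q g j b) (fn P₁ e a q g j (x j)) < 1 / (j + 1)) := by
    intro j
    by_cases hj : MvPolynomial.eval (fun i => D.act (g j) (x j) i) P₀ ≠ 0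
    swap
    · exact ⟨w₀, hw₀, fun h => absurd h hj⟩
    have hjU := D.maps (g j) (hxU j)
    have hreg : x j ∈ reg D n := reg_of_act (g j) (hxU j)
      ⟨hjU, hE.chart _ (subset_closure hjU) (D.mem_U_iff.1 hjU).1 hj⟩
    have hc := (holOn_fn (P₁ := P₁) (e := e) (a := a) (q := q) (g := g) j).continuousOn (x j) (hxU j)
    obtain ⟨δ, hδ, hd⟩ := Metric.continuousWithinAt_iff.1 hc (1 / ((j : ℝ) + 1)) (by positivity)
    obtain ⟨b, hb, hbd⟩ := Metric.mem_closure_iff.1 (exists_dense_near hE hreg)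
      (min δ (1 / ((j : ℝ) + 1))) (lt_min hδ (by positivity))
    rw [dist_comm] at hbd
    exact ⟨b, hb, fun _ => ⟨hbd.trans_le (min_le_right _ _),
      hd hb.1 (hbd.trans_le (min_le_left _ _))⟩⟩
  choose b hb hbd using hnear
  have hev : ∀ᶠ j in atTop, MvPolynomial.eval (fun i => D.act (g j) (x j) i) P₀ ≠ 0 :=
    hxq.eventually hne
  have hbx : Tendsto b atTop (𝓝 x₀) := by
    rw [tendsto_iff_dist_tendsto_zero]
    refine squeeze_zero' (Eventually.of_forall fun j => dist_nonneg)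
      (hev.mono fun j hj => (dist_triangle _ (x j) _).trans (add_le_add (hbd j hj).1.le le_rfl)) ?_
    simpa using tendsto_one_div_add_atTop_nhds_zero_nat.add (tendsto_iff_dist_tendsto_zero.1 hx)
  have hfb : Tendsto (fun j => fn P₁ e a q g j (b j)) atTop (𝓝 1) := by
    rw [tendsto_iff_dist_tendsto_zero]
    refine squeeze_zero' (Eventually.of_forall fun j => dist_nonneg)
      (hev.mono fun j hj => (dist_triangle _ (fn P₁ e a q g j (x j)) _).trans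
        (add_le_add (hbd j hj).2.le le_rfl)) ?_
    simpa using tendsto_one_div_add_atTop_nhds_zero_nat.add (tendsto_iff_dist_tendsto_zero.1 hfx)
  have hgood₀ := good_of_tendsto hE he hq hq0 hx₀ (tendsto_of_near hE he hq hx₀ hb hbx hfb)
  -- all points are good
  have hpt : ∀ z, Good P₁ e a q n g z → Tendsto (fun j => fn P₁ e a q g j z) atTop (𝓝 1) :=
    fun z hz => by
      obtain ⟨hr, O, hO, hu⟩ := hz
      exact hu.tendsto_at ⟨mem_of_mem_nhds hO, hr.1⟩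
  have hall : ∀ z ∈ D.U, Good P₁ e a q n g z := by
    have : PreconnectedSpace D.U := Subtype.preconnectedSpace D.connected_U.isPreconnected
    set T : Set D.U := {z | Good P₁ e a q n g z}
    have hTo : IsOpen T := by
      rw [isOpen_iff_mem_nhds]
      rintro ⟨z, hzU⟩ ⟨hr, O, hO, hu⟩
      rw [mem_nhds_subtype]
      refine ⟨{y | (y ∈ D.U → y ∈ reg D n) ∧ O ∈ 𝓝 y}, ?_, fun y hy => ⟨hy.1 y.2, O, hy.2, hu⟩⟩
      exact inter_mem (eventually_reg hr) (eventually_mem_nhds_iff.2 hO)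
    have hTc : IsClosed T := by
      refine isClosed_of_closure_subset fun z hz => ?_
      rw [closure_subtype] at hz
      have hex : ∀ i : ℕ, ∃ c, (c ∈ D.U ∧ MvPolynomial.eval (fun l => c l) P₀ ≠ 0) ∧
          dist c (z : Cn N) < 1 / (i + 1) ∧
          Tendsto (fun j => fn P₁ e a q g j c) atTop (𝓝 1) := by
        intro i
        have hi : (0 : ℝ) < 1 / (i + 1) / 2 := by positivity
        obtain ⟨w, hw, hwd⟩ := Metric.mem_closure_iff.1 hz _ hi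
        obtain ⟨w', hw', rfl⟩ := hw
        obtain ⟨hr, O, hO, hu⟩ := hw'
        obtain ⟨δ, hδ, hδO⟩ := Metric.mem_nhds_iff.1 hO
        obtain ⟨c, hc, hcd⟩ := Metric.mem_closure_iff.1 (exists_dense_near hE hr)
          (min δ (1 / ((i : ℝ) + 1) / 2)) (lt_min hδ hi)
        refine ⟨c, hc, ?_, hu.tendsto_at ⟨hδO (mem_ball.2 ?_), hc.1⟩⟩
        · have := dist_triangle c (w' : Cn N) z
          rw [dist_comm] at hwd hcd
          linarith [min_le_right δ (1 / ((i : ℝ) + 1) / 2)]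
        · rw [dist_comm]; exact hcd.trans_le (min_le_left _ _)
      choose c hc hcd hcl using hex
      have hNex : ∀ i : ℕ, ∃ M, ∀ j ≥ M, dist (fn P₁ e a q g j (c i)) 1 < 1 / ((i : ℝ) + 1) :=
        fun i => eventually_atTop.1 (Metric.tendsto_nhds.1 (hcl i) _ (by positivity))
      choose M hM using hNex
      set idx : ℕ → ℕ := fun j => Nat.findGreatest (fun i => M i ≤ j) j
      have hidx : Tendsto idx atTop atTop := tendsto_atTop.2 fun I =>
        eventually_atTop.2 ⟨max I (M I), fun j hj =>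
          Nat.le_findGreatest (le_of_max_le_left hj) (le_of_max_le_right hj)⟩
      have hdist : ∀ u : ℕ → ℝ, (∀ i, 0 ≤ u i) → (∀ i, u i ≤ 1 / ((i : ℝ) + 1)) →
          Tendsto (fun j => u (idx j)) atTop (𝓝 0) := fun u h0 h1 =>
        squeeze_zero (fun j => h0 _) (fun j => h1 _)
          (tendsto_one_div_add_atTop_nhds_zero_nat.comp hidx)
      refine good_of_tendsto hE he hq hq0 z.2
        (tendsto_of_near hE he hq z.2 (b := fun j => c (idx j)) (fun j => hc _) ?_ ?_)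
      · exact tendsto_iff_dist_tendsto_zero.2
          (hdist _ (fun _ => dist_nonneg) fun i => (hcd i).le)
      · rw [tendsto_iff_dist_tendsto_zero]
        refine squeeze_zero' (Eventually.of_forall fun j => dist_nonneg)
          (eventually_atTop.2 ⟨M 0, fun j hj => (hM (idx j) j
            (Nat.findGreatest_spec (P := fun i => M i ≤ j) (Nat.zero_le j) hj)).le⟩)
          (tendsto_one_div_add_atTop_nhds_zero_nat.comp hidx)
    have := IsClopen.eq_univ ⟨hTc, hTo⟩ ⟨⟨x₀, hx₀⟩, hgood₀⟩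
    exact fun z hz => (this.symm ▸ mem_univ (⟨z, hz⟩ : D.U) : (⟨z, hz⟩ : D.U) ∈ T)
  refine ⟨fun z hz => (hall z hz).1, fun L hL hLc => ?_⟩
  have hloc : TendstoLocallyUniformlyOn (fn P₁ e a q g) (fun _ => 1) atTop L := by
    intro u hu z hz
    obtain ⟨O, hO, hOu⟩ := (hall z (hL hz)).2
    exact ⟨O ∩ L, inter_mem (mem_nhdsWithin_of_mem_nhds hO) self_mem_nhdsWithin,
      (hOu u hu).mono fun j hj y hy => hj y ⟨hy.1, hL hy.2⟩⟩
  have huL := (tendstoLocallyUniformlyOn_iff_tendstoUniformlyOn_of_compact hLc).1 hloc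
  rw [Metric.tendstoUniformlyOn_iff] at huL ⊢
  intro ε hε
  obtain ⟨δ, hδ, hd⟩ := dist_act_lt (g := g) he hq hε
  filter_upwards [huL δ hδ] with j hj y hy
  exact hd j y (hL hy) (by rw [← dist_eq_norm, dist_comm]; exact hj y hy)

/-- A peak point makes the domain smooth. -/
theorem smooth_of_peak (hE : Exc D n P₀) (he : 0 < e) (hq : IsPeak P₁ D e a q)
    (hq0 : MvPolynomial.eval (fun i => q i) P₀ ≠ 0) :
    ∀ z ∈ D.U, ∃ φ : Chart D n 0, φ.ψ 0 = z := by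
  obtain ⟨u, hu, huq⟩ := mem_closure_iff_seq_limit.1 hq.1
  choose γ hγ using fun j => D.cover (u j) (hu j)
  obtain ⟨c, hc, s, hs, hsc⟩ := D.compact_K.tendsto_subseq hγ
  choose k hk using fun j => D.inv (γ (s j))
  have h := orbit_uniform (g := k) hE he hq hq0 (x := fun j => D.act (γ (s j)) (u (s j)))
    (x₀ := c) (D.K_subset hc) (fun j => D.maps _ (hu _)) hsc (by
      refine (huq.comp hs.tendsto_atTop).congr fun j => ?_
      rw [comp_apply, hk j (D.maps _ (hu _)), D.back_act _ _ (hu _)])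
  exact fun z hz => (h.1 z hz).2

end Peak

end

end Vale.Agent.P274.Full.PatchAux
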