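import Vale.Agent.P274.Full.Patch.Affine
import Vale.Agent.P274.Full.Patch.Smooth
import Mathlib.Analysis.Calculus.InverseFunctionTheorem.ContDiff

/-!
A piece recentred at any point of its window: an affine complex change of coordinates makes the
tangent space horizontal, and both windows become as small as wanted.
-/

open Filter Metric Set Function Topology

namespace Vale.Agent.P274.Full.PatchAux

noncomputable section

variable {N m k : ℕ} {D : CDom N}

/-- The point of a piece over a parameter. -/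
def _root_.Vale.Agent.P274.Full.Loc.pt (P : Loc D m k) (x : Cn m × Rn k) : Cn N := P.ψ (lift P.h x 0)

theorem _root_.Vale.Agent.P274.Full.Loc.points_eq (P : Loc D m k) : P.points = P.pt '' P.S := rfl

/-- `mkC` as a linear map. -/
def mkCL (k : ℕ) : Rn k × Rn k →L[ℝ] Cn k :=
  LinearMap.toContinuousLinearMap
    { toFun := fun p => mkC p.1 p.2
      map_add' := fun p q => by
        refine PiLp.ext fun i => ?_; apply Complex.ext <;> simp [mkC]
      map_smul' := fun t p => by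
        refine PiLp.ext fun i => ?_; apply Complex.ext <;> simp [mkC] }

@[simp] theorem mkCL_apply (u v : Rn k) : mkCL k (u, v) = mkC u v := rfl

/-- The point over a parameter, linearly in parameter and height. -/
def liftL (m k : ℕ) : (Cn m × Rn k) × Rn k →L[ℝ] Mod m k :=
  ((ContinuousLinearMap.fst ℝ (Cn m) (Rn k)).comp
      (ContinuousLinearMap.fst ℝ (Cn m × Rn k) (Rn k))).prod
    ((mkCL k).comp (((ContinuousLinearMap.snd ℝ (Cn m) (Rn k)).comp
      (ContinuousLinearMap.fst ℝ (Cn m × Rn k) (Rn k))).prod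
      (ContinuousLinearMap.snd ℝ (Cn m × Rn k) (Rn k))))

theorem lift_eq (h : Cn m × Rn k → Rn k) (x : Cn m × Rn k) (e : Rn k) :
    lift h x e = liftL m k (x, h x + e) := rfl

theorem liftL_apply (x : Cn m × Rn k) (v : Rn k) : liftL m k (x, v) = (x.1, mkC x.2 v) := rfl

theorem rv_add (a b : Cn k) : rv (a + b) = rv a + rv b := by
  refine PiLp.ext fun i => ?_; simp [rv]

theorem iv_add (a b : Cn k) : iv (a + b) = iv a + iv b := by
  refine PiLp.ext fun i => ?_; simp [iv]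

theorem rv_smul (c : ℂ) (a : Cn k) : rv (c • a) = c.re • rv a - c.im • iv a := by
  refine PiLp.ext fun i => ?_; simp [rv, iv]

theorem iv_smul (c : ℂ) (a : Cn k) : iv (c • a) = c.re • iv a + c.im • rv a := by
  refine PiLp.ext fun i => ?_; simp [rv, iv]

/-- The base of a point of the model space. -/
def baseL (m k : ℕ) : Mod m k →L[ℝ] Cn m × Rn k :=
  LinearMap.toContinuousLinearMap
    { toFun := fun p => (p.1, rv p.2)
      map_add' := fun p q => by simp [rv_add]
      map_smul' := fun t p => by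
        refine Prod.ext rfl (PiLp.ext fun i => ?_); simp [rv] }

/-- The height of a point of the model space. -/
def heightL (m k : ℕ) : Mod m k →L[ℝ] Rn k :=
  LinearMap.toContinuousLinearMap
    { toFun := fun p => iv p.2
      map_add' := fun p q => by simp [iv_add]
      map_smul' := fun t p => by
        refine PiLp.ext fun i => ?_; simp [iv] }

@[simp] theorem baseL_apply (p : Mod m k) : baseL m k p = (p.1, rv p.2) := rfl
@[simp] theorem heightL_apply (p : Mod m k) : heightL m k p = iv p.2 := rfl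

theorem baseL_lift (h : Cn m × Rn k → Rn k) (x : Cn m × Rn k) (e : Rn k) :
    baseL m k (lift h x e) = x := by
  simp [lift, rv_mkC]

theorem lift_base_height (p : Mod m k) :
    liftL m k (baseL m k p, heightL m k p) = p := by
  simp [liftL_apply, mkC_rv_iv]

/-- The affine coordinates making a graph with derivative `A` horizontal. -/
def recL (A : Cn m × Rn k →L[ℝ] Rn k) : Mod m k →ₗ[ℂ] Mod m k where
  toFun p := (p.1, mkC (rv p.2 + A (0, iv p.2) - A (Complex.I • p.1, 0))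
    (iv p.2 - A (p.1, rv p.2)))
  map_add' p q := by
    refine Prod.ext rfl ?_
    have e : ∀ (a b : Cn m) (u v : Rn k), A (a + b, u + v) = A (a, u) + A (b, v) :=
      fun a b u v => by rw [← map_add]; rfl
    simp only [Prod.fst_add, Prod.snd_add, rv_add, iv_add, smul_add]
    refine PiLp.ext fun i => ?_
    have h1 := e 0 0 (iv p.2) (iv q.2)
    have h2 := e (Complex.I • p.1) (Complex.I • q.1) 0 0
    simp only [add_zero] at h1 h2
    rw [h1, h2, e]
    apply Complex.ext <;> simp [mkC] <;> ring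
  map_smul' c p := by
    refine Prod.ext rfl ?_
    set a := c.re
    set b := c.im
    have hc : ∀ z : Cn m, c • z = a • z + b • (Complex.I • z) := fun z => by
      rw [← Complex.coe_smul a, ← Complex.coe_smul b, smul_smul, ← add_smul]
      congr 1
      exact (Complex.re_add_im c).symm
    have hI : ∀ z : Cn m, Complex.I • c • z = -(b • z) + a • (Complex.I • z) := fun z => by
      rw [← Complex.coe_smul b, ← Complex.coe_smul a, smul_smul, smul_smul, ← neg_smul, ← add_smul]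
      congr 1
      apply Complex.ext <;> simp [a, b]
    have e : ∀ (z : Cn m) (u : Rn k), A (z, u) = A (z, 0) + A (0, u) := fun z u => by
      rw [← map_add]; simp
    have s1 : ∀ (r : ℝ) (z : Cn m), A (r • z, 0) = r • A (z, 0) := fun r z => by
      rw [← map_smul]; simp
    have s2 : ∀ (r : ℝ) (u : Rn k), A (0, r • u) = r • A (0, u) := fun r u => by
      rw [← map_smul]; simp
    have n1 : ∀ (z : Cn m), A (-z, 0) = -A (z, 0) := fun z => by rw [← map_neg]; simp
    have p1 : ∀ (z z' : Cn m), A (z + z', 0) = A (z, 0) + A (z', 0) := fun z z' => by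
      rw [← map_add]; simp
    have p2 : ∀ (u u' : Rn k), A (0, u + u') = A (0, u) + A (0, u') := fun u u' => by
      rw [← map_add]; simp
    have p3 : ∀ (u u' : Rn k), A (0, u - u') = A (0, u) - A (0, u') := fun u u' => by
      rw [← map_sub]; simp
    simp only [Prod.smul_fst, Prod.smul_snd, RingHom.id_apply, rv_smul, iv_smul, hI]
    rw [e (c • p.1), hc, e p.1]
    simp only [p1, p2, p3, s1, s2, n1]
    refine PiLp.ext fun i => ?_
    apply Complex.ext <;> simp [mkC, a, b] <;> ring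

theorem recL_apply (A : Cn m × Rn k →L[ℝ] Rn k) (p : Mod m k) :
    recL A p = (p.1, mkC (rv p.2 + A (0, iv p.2) - A (Complex.I • p.1, 0))
      (iv p.2 - A (p.1, rv p.2))) := rfl

theorem recL_injective {A : Cn m × Rn k →L[ℝ] Rn k} (hA : ‖A‖ ≤ 1 / 4) :
    Injective (recL A) := by
  rw [← LinearMap.ker_eq_bot, LinearMap.ker_eq_bot']
  intro p hp
  rw [recL_apply, Prod.mk_eq_zero] at hp
  obtain ⟨h1, h2⟩ := hp
  have hr := congrArg rv h2
  have hi := congrArg iv h2
  have z1 : rv (0 : Cn k) = 0 := by refine PiLp.ext fun i => ?_; simp [rv]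
  have z2 : iv (0 : Cn k) = 0 := by refine PiLp.ext fun i => ?_; simp [iv]
  rw [rv_mkC, h1, smul_zero, Prod.mk_zero_zero, map_zero, sub_zero, z1] at hr
  rw [iv_mkC, h1, z2] at hi
  have b1 : ∀ u : Rn k, ‖A (0, u)‖ ≤ 1 / 4 * ‖u‖ := fun u =>
    (A.le_opNorm _).trans (le_of_le_of_eq
      (mul_le_mul_of_nonneg_right hA (norm_nonneg _)) (by simp [Prod.norm_def]))
  have e1 : rv p.2 = -A (0, iv p.2) := eq_neg_of_add_eq_zero_left hr
  have e2 : iv p.2 = A (0, rv p.2) := sub_eq_zero.1 hi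
  have c1 := b1 (iv p.2)
  have c2 := b1 (rv p.2)
  rw [← norm_neg, ← e1] at c1
  rw [← e2] at c2
  have hu : rv p.2 = 0 := norm_le_zero_iff.1 (by linarith [norm_nonneg (iv p.2)])
  have hv : iv p.2 = 0 := norm_le_zero_iff.1 (by linarith [norm_nonneg (rv p.2)])
  refine Prod.ext h1 ?_
  rw [← mkC_rv_iv p.2, hu, hv]
  refine PiLp.ext fun i => ?_
  apply Complex.ext <;> simp [mkC]

theorem _root_.Vale.Agent.P274.Full.Loc.continuousAt_π (P : Loc D m k) {z : Cn N} (hz : z ∈ P.B) : ContinuousAt P.π z :=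
  (P.diff_π.continuousOn).continuousAt (P.isOpen_B.mem_nhds hz)

theorem _root_.Vale.Agent.P274.Full.Loc.continuousAt_lift (P : Loc D m k) {x : Cn m × Rn k} (hx : x ∈ P.S) :
    ContinuousAt (fun x => lift P.h x 0) x := by
  simp only [lift_eq, add_zero]
  exact (liftL m k).continuous.continuousAt.comp
    (continuousAt_id.prodMk ((P.smooth_h.continuousOn).continuousAt (P.isOpen_S.mem_nhds hx)))

theorem _root_.Vale.Agent.P274.Full.Loc.recenter (P : Loc D m k) {x₀ : Cn m × Rn k} (hx₀ : x₀ ∈ P.S) {Nb : Set (Cn N)}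
    (hNb : Nb ∈ 𝓝 (P.pt x₀)) :
    ∃ (Q : Loc D m k) (C : ℝ), Q.ψ 0 = P.pt x₀ ∧ Q.points ⊆ P.points ∧
      (∀ y ∈ Q.W, Q.ψ y ∈ Nb) ∧
      (∀ y ∈ Q.W, ∀ y' ∈ Q.W, ‖y - y'‖ ≤ C * ‖Q.ψ y - Q.ψ y'‖) ∧
      ∀ᶠ z in 𝓝 (P.pt x₀), z ∈ P.points → z ∈ Q.points := by
  classical
  set A := fderiv ℝ P.h x₀ with hA
  have hAn : ‖A‖ ≤ 1 / 4 := P.small_h x₀ hx₀
  set p₀ := lift P.h x₀ 0 with hp₀
  have hp₀W : p₀ ∈ P.W := P.edge_W x₀ hx₀
  have hqB : P.pt x₀ ∈ P.B := (P.maps_ψ _ hp₀W).2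
  set Le := (LinearEquiv.ofInjectiveEndo _ (recL_injective hAn)).toContinuousLinearEquiv with hLe
  have hLe_apply : ∀ p, Le p = recL A p := fun p => rfl
  set Φ : Mod m k → Mod m k := fun p => Le (p - p₀) with hΦ
  set Ψ : Mod m k → Mod m k := fun y => Le.symm y + p₀ with hΨ
  have hΨΦ : ∀ p, Ψ (Φ p) = p := fun p => by simp [hΨ, hΦ]
  have hΦΨ : ∀ y, Φ (Ψ y) = y := fun y => by simp [hΨ, hΦ]
  have hΦc : Continuous Φ := by fun_prop
  have hΨc : Continuous Ψ := by fun_prop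
  have hΨd : Differentiable ℂ Ψ := by fun_prop
  have hΦd : Differentiable ℂ Φ := by fun_prop
  -- the new base and height over an old parameter
  set lam : Cn m × Rn k → Mod m k := fun x => Φ (lift P.h x 0) with hlam
  set β : Cn m × Rn k → Cn m × Rn k := fun x => baseL m k (lam x) with hβ
  set τ : Cn m × Rn k → Rn k := fun x => heightL m k (lam x) with hτ
  have hlamC : ContDiffOn ℝ 3 lam P.S := by
    have h1 : ContDiffOn ℝ 3 (fun x => lift P.h x 0) P.S := by
      simp only [lift_eq, add_zero]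
      exact (liftL m k).contDiff.comp_contDiffOn (contDiffOn_id.prodMk P.smooth_h)
    exact ((Le.contDiff.restrict_scalars ℝ).comp (contDiff_id.sub contDiff_const)).comp_contDiffOn h1
  have hβC : ContDiffOn ℝ 3 β P.S := (baseL m k).contDiff.comp_contDiffOn hlamC
  have hτC : ContDiffOn ℝ 3 τ P.S := (heightL m k).contDiff.comp_contDiffOn hlamC
  have hS : P.S ∈ 𝓝 x₀ := P.isOpen_S.mem_nhds hx₀
  have hdh : HasFDerivAt P.h A x₀ :=
    ((P.smooth_h.contDiffAt hS).differentiableAt (by norm_num)).hasFDerivAt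
  set Λ : Cn m × Rn k →L[ℝ] Mod m k :=
    (liftL m k).comp ((ContinuousLinearMap.id ℝ _).prod A) with hΛ
  set L' : Cn m × Rn k →L[ℝ] Mod m k :=
    ((Le : Mod m k →L[ℂ] Mod m k).restrictScalars ℝ).comp Λ with hL'
  have hlam' : HasFDerivAt lam L' x₀ := by
    have h1 : HasFDerivAt (fun x => lift P.h x 0) Λ x₀ := by
      simp only [lift_eq, add_zero]
      exact (liftL m k).hasFDerivAt.comp x₀ ((hasFDerivAt_id x₀).prodMk hdh)
    exact (((Le : Mod m k →L[ℂ] Mod m k).restrictScalars ℝ).hasFDerivAt).comp x₀ (h1.sub_const p₀)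
  have hL'v : ∀ v, L' v = (v.1, mkC (v.2 + A (0, A v) - A (Complex.I • v.1, 0)) 0) := by
    intro v
    show recL A (liftL m k (v, A v)) = _
    rw [liftL_apply, recL_apply]
    simp [rv_mkC, iv_mkC]
  set β' := (baseL m k).comp L' with hβ'
  have hinj : Injective (β'.toLinearMap) := by
    rw [← LinearMap.ker_eq_bot, LinearMap.ker_eq_bot']
    intro v hv
    simp only [hβ', ContinuousLinearMap.coe_coe, ContinuousLinearMap.comp_apply, hL'v,
      baseL_apply, rv_mkC, Prod.mk_eq_zero] at hv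
    obtain ⟨h1, h2⟩ := hv
    rw [h1, smul_zero, Prod.mk_zero_zero, map_zero, sub_zero] at h2
    have hv1 : ‖v‖ = ‖v.2‖ := by rw [Prod.norm_def, h1]; simp
    have hA1 : ‖A v‖ ≤ 1 / 4 * ‖v.2‖ :=
      (A.le_opNorm v).trans (by rw [hv1]; gcongr)
    have hA2 : ‖A (0, A v)‖ ≤ 1 / 4 * ‖A v‖ :=
      (A.le_opNorm _).trans (le_of_le_of_eq
        (mul_le_mul_of_nonneg_right hAn (norm_nonneg _)) (by simp [Prod.norm_def]))
    rw [eq_neg_of_add_eq_zero_left h2, norm_neg] at hA1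
    refine Prod.ext h1 ?_
    rw [Prod.snd_zero, eq_neg_of_add_eq_zero_left h2, neg_eq_zero]
    exact norm_le_zero_iff.1 (by linarith [norm_nonneg (A (0, A v))])
  set βe := (LinearEquiv.ofInjectiveEndo _ hinj).toContinuousLinearEquiv with hβe
  have hβe_coe : (βe : Cn m × Rn k →L[ℝ] Cn m × Rn k) = β' := rfl
  have hβd : HasFDerivAt β (βe : Cn m × Rn k →L[ℝ] Cn m × Rn k) x₀ := by
    rw [hβe_coe]; exact (baseL m k).hasFDerivAt.comp x₀ hlam'
  have hτd : HasFDerivAt τ (0 : Cn m × Rn k →L[ℝ] Rn k) x₀ := by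
    have := (heightL m k).hasFDerivAt.comp x₀ hlam'
    refine this.congr_fderiv (ContinuousLinearMap.ext fun v => ?_)
    simp [hL'v, iv_mkC]
  have hlam0 : lam x₀ = 0 := by simp [hlam, hΦ, hp₀]
  have hβ0 : β x₀ = 0 := by rw [hβ]; simp only [hlam0, map_zero]
  have hτ0 : τ x₀ = 0 := by rw [hτ]; simp only [hlam0, map_zero]
  have h3 : (3 : WithTop ℕ∞) ≠ 0 := by norm_num
  set e := (hβC.contDiffAt hS).toOpenPartialHomeomorph β hβd h3 with he
  have hecoe : ⇑e = β := rfl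
  have hx₀e : x₀ ∈ e.source := ContDiffAt.mem_toOpenPartialHomeomorph_source _ _ _
  have hback0 : e.symm 0 = x₀ := by
    have := e.left_inv hx₀e
    rwa [hecoe, hβ0] at this
  set h' : Cn m × Rn k → Rn k := fun y => τ (e.symm y) with hh'
  have hsymm : ContDiffAt ℝ 3 e.symm 0 := by
    have h0t : (0 : Cn m × Rn k) ∈ e.target := by
      have := e.map_source hx₀e
      rwa [hecoe, hβ0] at this
    refine e.contDiffAt_symm (𝕜 := ℝ) (f₀' := βe) h0t ?_ ?_
    · rw [hback0]; exact hβd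
    · rw [hback0]; exact hβC.contDiffAt hS
  have hh'C : ContDiffAt ℝ 3 h' 0 := by
    have := (hτC.contDiffAt hS)
    rw [← hback0] at this
    exact this.comp 0 hsymm
  have hh'0 : fderiv ℝ h' 0 = 0 := by
    have h1 := (hsymm.differentiableAt h3).hasFDerivAt
    have h2 : HasFDerivAt h' ((0 : Cn m × Rn k →L[ℝ] Rn k).comp (fderiv ℝ e.symm 0)) 0 := by
      have := hτd
      rw [← hback0] at this
      exact this.comp 0 h1
    rw [h2.fderiv, ContinuousLinearMap.zero_comp]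
  -- the radius of the new chart
  obtain ⟨K, t, ht, hK⟩ := (Surface.hasStrictFDerivAt P.isOpen_B P.diff_π hqB).exists_lipschitzOnWith
  have hWnhds : P.W ∩ P.ψ ⁻¹' (Nb ∩ t) ∈ 𝓝 p₀ := by
    refine inter_mem (P.isOpen_W.mem_nhds hp₀W) ?_
    exact (P.diff_ψ.continuousOn.continuousAt (P.isOpen_W.mem_nhds hp₀W)).preimage_mem_nhds
      (inter_mem hNb ht)
  obtain ⟨ρ, hρ, hρsub⟩ := exists_box_subset (rcModL m k) (rcModE m k).injective p₀ hWnhds
  set V := rcMod ⁻¹' box (rcMod p₀) ρ with hV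
  have hVo : IsOpen V := (isOpen_box _ _).preimage continuous_rcMod
  have hp₀V : p₀ ∈ V := fun i => by simp [hρ]
  -- the radius of the new window
  have hinv : ∀ᶠ x in 𝓝 x₀, fderiv ℝ β x ∈
      range (fun g : (Cn m × Rn k) ≃L[ℝ] (Cn m × Rn k) => g.toContinuousLinearMap) := by
    have hc : ContinuousAt (fderiv ℝ β) x₀ :=
      ((hβC.contDiffAt hS).fderiv_right (m := 2) (by norm_num)).continuousAt
    refine hc.preimage_mem_nhds ?_
    rw [hβd.fderiv]
    exact ContinuousLinearEquiv.nhds βe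
  have hsmall : ∀ᶠ x in 𝓝 x₀, ‖fderiv ℝ h' (β x)‖ ≤ 1 / 4 := by
    have hc : ContinuousAt (fderiv ℝ h') 0 :=
      (hh'C.fderiv_right (m := 2) (by norm_num)).continuousAt
    have h1 : ∀ᶠ y in 𝓝 (0 : Cn m × Rn k), ‖fderiv ℝ h' y‖ < 1 / 4 := by
      refine (hc.norm).eventually (gt_mem_nhds ?_)
      simp only [hh'0, norm_zero]; norm_num
    have h2 : Tendsto β (𝓝 x₀) (𝓝 0) := hβ0 ▸ hβd.continuousAt
    exact (h2.eventually h1).mono fun x hx => hx.le
  have hwin : P.S ∩ e.source ∩ (fun x => lift P.h x 0) ⁻¹' V ∩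
      {x | fderiv ℝ β x ∈
        range (fun g : (Cn m × Rn k) ≃L[ℝ] (Cn m × Rn k) => g.toContinuousLinearMap)} ∩
      {x | ‖fderiv ℝ h' (β x)‖ ≤ 1 / 4} ∈ 𝓝 x₀ :=
    inter_mem (inter_mem (inter_mem (inter_mem hS (e.open_source.mem_nhds hx₀e))
      ((P.continuousAt_lift hx₀).preimage_mem_nhds (hVo.mem_nhds hp₀V))) hinv) hsmall
  obtain ⟨σ, hσ, hσsub⟩ := exists_box_subset (rcBaseL m k) rcBase_injective x₀ hwin
  set Ω := rcBase ⁻¹' box (rcBase x₀) σ with hΩ
  have hΩo : IsOpen Ω := (isOpen_box _ _).preimage continuous_rcBase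
  have hx₀Ω : x₀ ∈ Ω := fun i => by simp [hσ]
  have hΩS : Ω ⊆ P.S := fun x hx => (hσsub hx).1.1.1.1
  have hΩe : Ω ⊆ e.source := fun x hx => (hσsub hx).1.1.1.2
  have hΩV : ∀ x ∈ Ω, lift P.h x 0 ∈ V := fun x hx => (hσsub hx).1.1.2
  have hVW : V ⊆ P.W := fun y hy => (hρsub hy).1
  have hliftβ : ∀ x ∈ Ω, lift h' (β x) 0 = lam x := by
    intro x hx
    rw [lift_eq, add_zero, hh']
    simp only
    rw [show e.symm (β x) = x from e.left_inv (hΩe hx)]
    exact lift_base_height _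
  let Q : Loc D m k :=
  { π := fun z => Φ (P.π z)
    ψ := fun y => P.ψ (Ψ y)
    W := Ψ ⁻¹' (P.W ∩ V)
    B := P.B ∩ P.π ⁻¹' V
    isOpen_W := (P.isOpen_W.inter hVo).preimage hΨc
    isOpen_B := P.diff_π.continuousOn.isOpen_inter_preimage P.isOpen_B hVo
    zero_mem := by simp [hΨ, hp₀W, hp₀V]
    diff_π := hΦd.comp_differentiableOn (P.diff_π.mono inter_subset_left)
    diff_ψ := P.diff_ψ.comp hΨd.differentiableOn fun y hy => hy.1
    maps_ψ := fun y hy => ⟨(P.maps_ψ _ hy.1).1, (P.maps_ψ _ hy.1).2, by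
      rw [mem_preimage, P.π_ψ _ hy.1]; exact hy.2⟩
    maps_π := fun z hz => by
      show Ψ (Φ (P.π z)) ∈ P.W ∩ V
      rw [hΨΦ]
      exact ⟨P.maps_π z ⟨hz.1, hz.2.1⟩, hz.2.2⟩
    π_ψ := fun y hy => by rw [P.π_ψ _ hy.1, hΦΨ]
    ψ_π := fun z hz => by rw [hΨΦ]; exact P.ψ_π z ⟨hz.1, hz.2.1⟩
    k_pos := P.k_pos
    sa_Uc := by
      refine ((P.sa_Uc.inter (SA.box (rcMod p₀) ρ)).preimage_affine
        ((rcModE m k : Mod m k →ₗ[ℝ] _) ∘ₗ (Le.symm.toLinearEquiv.restrictScalars ℝ :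
          Mod m k →ₗ[ℝ] Mod m k) ∘ₗ ((rcModE m k).symm : _ →ₗ[ℝ] Mod m k))
        (rcMod p₀)).congr fun y => ?_
      have e1 : rcMod (Le.symm (unMod y)) + rcMod p₀ = rcMod (Ψ (unMod y)) :=
        ((rcModL m k).map_add _ _).symm
      rw [mem_ofPred_eq]
      simp only [LinearMap.comp_apply, LinearEquiv.coe_coe, LinearEquiv.restrictScalars_apply,
        ContinuousLinearEquiv.coe_toLinearEquiv, rcModE_apply]
      rw [show (rcModE m k).symm y = unMod y from rfl, e1]
      constructor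
      · rintro ⟨y', ⟨⟨hW, hVy⟩, hU⟩, rfl⟩
        rw [unMod_rcMod]
        exact ⟨⟨_, ⟨hW, hU⟩, rfl⟩, hVy⟩
      · rintro ⟨⟨p, ⟨hW, hU⟩, hp⟩, hVy⟩
        have : p = Ψ (unMod y) := (rcModE m k).injective hp
        subst this
        exact ⟨unMod y, ⟨⟨hW, hVy⟩, hU⟩, rcMod_unMod y⟩
    S := e '' Ω
    h := h'
    isOpen_S := e.isOpen_image_of_subset_source hΩo hΩe
    zero_mem_S := ⟨x₀, hx₀Ω, hβ0⟩
    sa_h := by
      have hsa := P.sa_h.inter ((SA.box (rcBase x₀) σ).reindex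
        (Sum.inl : (Fin m ⊕ Fin m) ⊕ Fin k → (((Fin m ⊕ Fin m) ⊕ Fin k) ⊕ Fin k)))
      set G := graphEquiv m k
      refine (hsa.preimage_affine
        ((LinearMap.funLeft ℝ ℝ G) ∘ₗ (rcModE m k : Mod m k →ₗ[ℝ] _) ∘ₗ
          (Le.symm.toLinearEquiv.restrictScalars ℝ : Mod m k →ₗ[ℝ] Mod m k) ∘ₗ
          ((rcModE m k).symm : _ →ₗ[ℝ] Mod m k) ∘ₗ (LinearMap.funLeft ℝ ℝ G.symm))
        (rcGraph p₀)).congr fun y => ?_
      set p := unMod (y ∘ G.symm) with hp
      have hy : y = rcGraph p := by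
        rw [hp, rcGraph, rcMod_unMod]; funext i; simp [G]
      have e1 : rcMod (Le.symm p) ∘ G + rcGraph p₀ = rcGraph (Ψ p) := by
        funext i
        simp only [rcGraph, Pi.add_apply, comp_apply, hΨ, G]
        exact (congrFun ((rcModL m k).map_add (Le.symm p) p₀) _).symm
      rw [mem_ofPred_eq, mem_ofPred_eq]
      simp only [LinearMap.comp_apply, LinearEquiv.coe_coe, LinearEquiv.restrictScalars_apply,
        ContinuousLinearEquiv.coe_toLinearEquiv, rcModE_apply, LinearMap.funLeft]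
      change _ ↔ rcMod (Le.symm p) ∘ G + rcGraph p₀ ∈ _
      rw [e1]
      constructor
      · rintro ⟨x', ⟨x, hx, rfl⟩, hxy⟩
        have : p = lam x := by
          rw [hp, hxy, hecoe, ← rcGraph_lift, hliftβ x hx, rcGraph]
          have : (rcMod (lam x) ∘ G) ∘ G.symm = rcMod (lam x) := by funext i; simp
          rw [this, unMod_rcMod]
        rw [this, hlam, hΨΦ, rcGraph_lift]
        exact ⟨⟨x, hΩS hx, rfl⟩, by
          show (Sum.elim (rcBase x) _) ∘ Sum.inl ∈ box (rcBase x₀) σ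
          rw [Sum.elim_comp_inl]; exact hx⟩
      · rintro ⟨⟨x, hxS, hxy⟩, hbox⟩
        rw [← rcGraph_lift] at hxy
        have hp' : Ψ p = lift P.h x 0 := by
          refine (rcModE m k).injective ?_
          funext i
          simpa [rcGraph, G] using congrFun hxy (G.symm i)
        have hxΩ : x ∈ Ω := by
          rw [hxy, rcGraph_lift] at hbox
          simpa [hΩ] using hbox
        refine ⟨β x, ⟨x, hxΩ, rfl⟩, ?_⟩
        rw [← rcGraph_lift, hliftβ x hxΩ]
        show y = rcGraph (Φ (lift P.h x 0))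
        rw [← hp', hΦΨ]
        exact hy
    smooth_h := by
      rintro y ⟨x, hx, rfl⟩
      obtain ⟨f, hf⟩ := (hσsub hx).1.2
      have hxS : P.S ∈ 𝓝 x := P.isOpen_S.mem_nhds (hΩS hx)
      have hl : e.symm (e x) = x := e.left_inv (hΩe hx)
      have h1 : ContDiffAt ℝ 3 e.symm (e x) := by
        refine e.contDiffAt_symm (𝕜 := ℝ) (f₀' := f) (e.map_source (hΩe hx)) ?_ ?_
        · rw [hl, show (f : Cn m × Rn k →L[ℝ] Cn m × Rn k) = fderiv ℝ β x from hf]
          exact ((hβC.contDiffAt hxS).differentiableAt h3).hasFDerivAt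
        · rw [hl]; exact hβC.contDiffAt hxS
      have h2 := hτC.contDiffAt hxS
      rw [← hl] at h2
      exact (h2.comp (e x) h1).contDiffWithinAt
    h_zero := by simp only [hh', hback0, hτ0]
    dh_zero := hh'0
    small_h := by
      rintro y ⟨x, hx, rfl⟩
      exact (hσsub hx).2
    edge_W := by
      rintro y ⟨x, hx, rfl⟩
      rw [hecoe, hliftβ x hx]
      show Ψ (Φ (lift P.h x 0)) ∈ P.W ∩ V
      rw [hΨΦ]
      exact ⟨P.edge_W x (hΩS hx), hΩV x hx⟩ }
  have hQpt : ∀ x ∈ Ω, Q.pt (β x) = P.pt x := fun x hx => by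
    show P.ψ (Ψ (lift h' (β x) 0)) = P.ψ (lift P.h x 0)
    rw [hliftβ x hx, hlam, hΨΦ]
  obtain ⟨C, hC⟩ : ∃ C : ℝ, ∀ p, ‖Le p‖ ≤ C * ‖p‖ :=
    ⟨_, fun p => (Le : Mod m k →L[ℂ] Mod m k).le_opNorm p⟩
  refine ⟨Q, max C 0 * K, ?_, ?_, ?_, ?_, ?_⟩
  · show P.ψ (Ψ 0) = P.ψ p₀
    simp [hΨ]
  · rintro _ ⟨y, ⟨x, hx, rfl⟩, rfl⟩
    exact ⟨x, hΩS hx, (hQpt x hx).symm⟩
  · exact fun y hy => (hρsub hy.2).2.1
  · intro y hy y' hy'
    have h1 : Ψ y - Ψ y' = P.π (P.ψ (Ψ y)) - P.π (P.ψ (Ψ y')) := by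
      rw [P.π_ψ _ hy.1, P.π_ψ _ hy'.1]
    have h2 : y - y' = Le (Ψ y - Ψ y') := by simp [hΨ]
    rw [h2, h1]
    refine (hC _).trans ?_
    rw [mul_assoc]
    exact mul_le_mul (le_max_left _ _)
      (hK.norm_sub_le (hρsub hy.2).2.2 (hρsub hy'.2).2.2) (norm_nonneg _) (le_max_right _ _)
  · have h1 : ContinuousAt (fun z => baseL m k (P.π z)) (P.pt x₀) :=
      (baseL m k).continuous.continuousAt.comp (P.continuousAt_π hqB)
    have h2 : baseL m k (P.π (P.pt x₀)) = x₀ := by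
      rw [Loc.pt, P.π_ψ _ hp₀W, baseL_lift]
    have h3 := h1.preimage_mem_nhds (h2.symm ▸ hΩo.mem_nhds hx₀Ω)
    filter_upwards [h3] with z hz hzP
    obtain ⟨x, hx, rfl⟩ := hzP
    have hxx : baseL m k (P.π (P.ψ (lift P.h x 0))) = x := by
      rw [P.π_ψ _ (P.edge_W x hx), baseL_lift]
    rw [mem_preimage, hxx] at hz
    exact ⟨β x, ⟨x, hz, rfl⟩, hQpt x hz⟩

end

end Vale.Agent.P274.Full.PatchAux
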