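import Vale.Agent.P274.Full.Patch.Peak
import Vale.Agent.P274.Full.Patch.Concave
import Vale.Agent.P274.Full.Patch.Recenter
import Mathlib.Analysis.Normed.Module.HahnBanach
import Mathlib.Analysis.RCLike.Extend
import Mathlib.Analysis.Complex.RealDeriv
import Mathlib.Analysis.InnerProductSpace.Calculus

/-!
A window of a piece in which every point is the maximiser of as many independent functions as the
codimension: a strict maximiser makes nearby critical points maximisers, and the critical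
parameters over a point are prescribed by arbitrary conormals.
-/

open Filter Metric Set Function Topology

namespace Vale.Agent.P274.Full.PatchAux

noncomputable section

variable {N m k : ℕ} {D : CDom N}

/-- The tangent map of a graph with differential `A`. -/
def tmap (A : Cn m × Rn k →L[ℝ] Rn k) : Cn m × Rn k →L[ℝ] Mod m k :=
  (liftL m k).comp ((ContinuousLinearMap.id ℝ _).prod A)

/-- The conormal of a graph with differential `A` in the direction `ν`. -/
def conormal (A : Cn m × Rn k →L[ℝ] Rn k) (ν : Rn k) : Mod m k →L[ℝ] ℝ :=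
  (innerSL ℝ ν).comp (heightL m k - A.comp (baseL m k))

theorem conormal_apply (A : Cn m × Rn k →L[ℝ] Rn k) (ν : Rn k) (p : Mod m k) :
    conormal A ν p = inner ℝ ν (iv p.2 - A (p.1, rv p.2)) := rfl

theorem conormal_comp_tmap (A : Cn m × Rn k →L[ℝ] Rn k) (ν : Rn k) :
    (conormal A ν).comp (tmap A) = 0 := by
  refine ContinuousLinearMap.ext fun v => ?_
  simp [conormal_apply, tmap, liftL_apply, rv_mkC, iv_mkC]

theorem norm_conormal_le {A : Cn m × Rn k →L[ℝ] Rn k} (hA : ‖A‖ ≤ 1 / 4) (ν : Rn k) :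
    ‖conormal A ν‖ ≤ ‖ν‖ * (‖heightL m k‖ + ‖baseL m k‖) := by
  refine (ContinuousLinearMap.opNorm_comp_le _ _).trans ?_
  rw [innerSL_apply_norm]
  refine mul_le_mul_of_nonneg_left ((norm_sub_le _ _).trans (add_le_add le_rfl ?_)) (norm_nonneg _)
  exact (A.opNorm_comp_le _).trans
    ((mul_le_mul_of_nonneg_right hA (norm_nonneg _)).trans (by linarith [norm_nonneg (baseL m k)]))

theorem conormal_add (A : Cn m × Rn k →L[ℝ] Rn k) (μ ν : Rn k) :
    conormal A (μ + ν) = conormal A μ + conormal A ν := by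
  refine ContinuousLinearMap.ext fun p => ?_
  simp [conormal_apply, inner_add_left]

theorem complex_indep {A : Cn m × Rn k →L[ℝ] Rn k} (hA : ‖A‖ ≤ 1 / 4) {ν : Fin k → Rn k}
    (hν : LinearIndependent ℝ ν) {ℓ : Fin k → (Mod m k →L[ℂ] ℂ)}
    (hℓ : ∀ l p, (ℓ l p).re = conormal A (ν l) p) : LinearIndependent ℂ ℓ := by
  rw [Fintype.linearIndependent_iff] at hν ⊢
  intro c hc
  set S := ∑ l, (c l).re • ν l with hS
  set T := ∑ l, (c l).im • ν l with hT
  have hsum : ∀ p, conormal A S p + conormal A T (Complex.I • p) = 0 := by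
    intro p
    have hlin : ∀ (w : Fin k → ℝ) (q : Mod m k),
        conormal A (∑ l, w l • ν l) q = ∑ l, w l * (ℓ l q).re := fun w q => by
      simp only [conormal_apply, sum_inner, real_inner_smul_left, hℓ]
    have h0 : ((∑ l, c l • ℓ l) p).re = 0 := by rw [hc]; simp
    rw [hS, hT, hlin, hlin, ← Finset.sum_add_distrib, ← h0]
    simp only [FunLike.coe_sum, Finset.sum_apply, FunLike.coe_smul, Pi.smul_apply, Complex.re_sum,
      smul_eq_mul, Complex.mul_re, map_smul, Complex.I_re, Complex.I_im]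
    exact Finset.sum_congr rfl fun l _ => by ring
  have hA' : ∀ u : Rn k, ‖A (0, u)‖ ≤ 1 / 4 * ‖u‖ := fun u =>
    (A.le_opNorm _).trans (le_of_le_of_eq
      (mul_le_mul_of_nonneg_right hA (norm_nonneg _)) (by simp [Prod.norm_def]))
  have hI1 : ∀ v : Rn k, Complex.I • mkC (0 : Rn k) v = mkC (-v) 0 := fun v => by
    refine PiLp.ext fun i => ?_; apply Complex.ext <;> simp [mkC]
  have hI2 : ∀ v : Rn k, Complex.I • mkC v (0 : Rn k) = mkC 0 v := fun v => by
    refine PiLp.ext fun i => ?_; apply Complex.ext <;> simp [mkC]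
  have h1 : ‖S‖ ^ 2 ≤ ‖T‖ * (1 / 4 * ‖S‖) := by
    have h := hsum (0, mkC 0 S)
    simp only [conormal_apply, Prod.smul_mk, smul_zero, hI1, rv_mkC, iv_mkC, Prod.mk_zero_zero,
      map_zero, sub_zero, zero_sub, real_inner_self_eq_norm_sq] at h
    rw [show ((0 : Cn m), -S) = -((0 : Cn m), S) by simp, map_neg, neg_neg] at h
    have := abs_real_inner_le_norm T (A (0, S))
    nlinarith [abs_le.1 this, mul_le_mul_of_nonneg_left (hA' S) (norm_nonneg T)]
  have h2 : ‖T‖ ^ 2 ≤ ‖S‖ * (1 / 4 * ‖T‖) := by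
    have h := hsum (0, mkC T 0)
    simp only [conormal_apply, Prod.smul_mk, smul_zero, hI2, rv_mkC, iv_mkC, Prod.mk_zero_zero,
      map_zero, sub_zero, zero_sub, real_inner_self_eq_norm_sq, inner_neg_right] at h
    have := abs_real_inner_le_norm S (A (0, T))
    nlinarith [abs_le.1 this, mul_le_mul_of_nonneg_left (hA' T) (norm_nonneg S)]
  have h3 : ‖S‖ ^ 2 + ‖T‖ ^ 2 ≤ 0 := by nlinarith [two_mul_le_add_sq ‖S‖ ‖T‖]
  have hS0 : S = 0 := norm_le_zero_iff.1 (by nlinarith [sq_nonneg ‖T‖])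
  have hT0 : T = 0 := norm_le_zero_iff.1 (by nlinarith [sq_nonneg ‖S‖])
  intro l
  exact Complex.ext (hν _ hS0 l) (hν _ hT0 l)

theorem linearIndependent_shift {δ : ℝ} (hδ : δ ≠ 0) (ν₀ : Rn k) (h : (∑ l, ν₀ l) + δ ≠ 0) :
    LinearIndependent ℝ fun l => ν₀ + δ • EuclideanSpace.single l (1 : ℝ) := by
  rw [Fintype.linearIndependent_iff]
  intro s hs
  have hi : ∀ i, (∑ l, s l) * ν₀ i + δ * s i = 0 := fun i => by
    have := congrArg (fun v : Rn k => v i) hs
    simpa [WithLp.ofLp_sum, Finset.sum_apply, mul_add, Finset.sum_add_distrib,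
      EuclideanSpace.single_apply, Pi.single_apply, Finset.sum_mul, mul_comm δ] using this
  have hsum : (∑ l, s l) * ((∑ l, ν₀ l) + δ) = 0 := by
    calc _ = ∑ i, ((∑ l, s l) * ν₀ i + δ * s i) := by
          rw [Finset.sum_add_distrib, ← Finset.mul_sum, ← Finset.mul_sum]; ring
      _ = 0 := Finset.sum_eq_zero fun i _ => hi i
  have hz := (mul_eq_zero.1 hsum).resolve_right h
  intro i
  have := hi i
  rw [hz, zero_mul, zero_add] at this
  exact (mul_eq_zero.1 this).resolve_left hδ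

/-- The real functional of pairing with a vector. -/
def pair (b : Cn N) : Cn N →L[ℝ] ℝ := Complex.reCLM.comp ((innerSL ℂ b).restrictScalars ℝ)

theorem pair_apply (b y : Cn N) : pair b y = (inner ℂ b y : ℂ).re := rfl

theorem norm_pair_le (b : Cn N) : ‖pair b‖ ≤ ‖b‖ := by
  refine ContinuousLinearMap.opNorm_le_bound _ (norm_nonneg _) fun y => ?_
  exact (Complex.abs_re_le_norm _).trans (norm_inner_le_norm (𝕜 := ℂ) b y)

theorem contDiff_pe {r : WithTop ℕ∞} (P₁ : MvPolynomial (Fin N) ℂ) : ContDiff ℝ r (pe P₁) := by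
  induction P₁ using MvPolynomial.induction_on with
  | C c =>
    have : pe (MvPolynomial.C c : MvPolynomial (Fin N) ℂ) = fun _ => c := by funext z; simp [pe]
    rw [this]
    exact contDiff_const
  | add p q hp hq =>
    have : pe (p + q) = fun z => pe p z + pe q z := by funext z; simp [pe]
    rw [this]
    exact hp.add hq
  | mul_X p i hp =>
    have : pe (p * MvPolynomial.X i) = fun z => pe p z * z i := by funext z; simp [pe]
    rw [this]
    exact hp.mul ((EuclideanSpace.proj (𝕜 := ℂ) i).restrictScalars ℝ).contDiff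

theorem contDiff_pf {r : WithTop ℕ∞} (P₁ : MvPolynomial (Fin N) ℂ) (e : ℝ) (a : Cn N) :
    ContDiff ℝ r (pf P₁ e a) :=
  (((contDiff_pe P₁).norm_sq ℝ).add (contDiff_const.mul (contDiff_id.norm_sq ℝ))).add
    (pair a).contDiff

/-- The real derivative of the maximised function and the derivative of its peak function agree. -/
theorem re_fderiv_pG (P₁ : MvPolynomial (Fin N) ℂ) (e : ℝ) (a : Cn N) {W : Set (Mod m k)}
    (hW : IsOpen W) {ψ : Mod m k → Cn N} (hψ : DifferentiableOn ℂ ψ W) {p : Mod m k} (hp : p ∈ W)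
    (v : Mod m k) :
    (fderiv ℂ (fun y => pG P₁ e a (ψ p) (ψ y)) p v).re
      = fderiv ℝ (fun y => pf P₁ e a (ψ y)) p v := by
  have hψp := hψ.differentiableAt (hW.mem_nhds hp)
  have hd : HasFDerivAt ψ ((fderiv ℂ ψ p).restrictScalars ℝ) p :=
    hψp.hasFDerivAt.restrictScalars ℝ
  have hG : HasFDerivAt (fun y => pG P₁ e a (ψ p) (ψ y))
      (fderiv ℂ (fun y => pG P₁ e a (ψ p) (ψ y)) p) p :=
    ((differentiable_pG P₁ e a _).differentiableAt.comp p hψp).hasFDerivAt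
  have h1 := Complex.reCLM.hasFDerivAt.comp p (hG.restrictScalars ℝ)
  have hpe : HasFDerivAt (fun y => pe P₁ (ψ y) - pe P₁ (ψ p))
      (((fderiv ℂ (pe P₁) (ψ p)).restrictScalars ℝ).comp ((fderiv ℂ ψ p).restrictScalars ℝ)) p :=
    (((differentiable_pe P₁ _).hasFDerivAt.restrictScalars ℝ).comp p hd).sub_const _
  have h2 := ((h1.add hpe.norm_sq).add ((hd.sub_const (ψ p)).norm_sq.const_mul e)).const_add
    (pf P₁ e a (ψ p))
  have h3 : HasFDerivAt (fun y => pf P₁ e a (ψ y))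
      (Complex.reCLM.comp ((fderiv ℂ (fun y => pG P₁ e a (ψ p) (ψ y)) p).restrictScalars ℝ)) p := by
    refine (h2.congr_of_eventuallyEq (Eventually.of_forall fun y => ?_)).congr_fderiv ?_
    · have := pf_sub P₁ e a (ψ p) (ψ y)
      simp only [comp_apply, Complex.reCLM_apply, Pi.add_apply]
      linarith
    · simp
  rw [h3.fderiv]
  rfl

/-- A vector inducing a prescribed real functional through the chart. -/
theorem exists_pair (φ : Chart D m k) {p : Mod m k} (hp : p ∈ φ.W) (Δ : Mod m k →L[ℝ] ℝ) :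
    ∃ c : Cn N, ‖c‖ ≤ 2 * ‖Δ‖ * ‖fderiv ℂ φ.π (φ.ψ p)‖ ∧
      ∀ v, pair c (fderiv ℂ φ.ψ p v) = Δ v := by
  set Δc : Mod m k →L[ℂ] ℂ := StrongDual.extendRCLike (𝕜 := ℂ) Δ with hΔc
  set T : Cn N →L[ℂ] ℂ := Δc.comp (fderiv ℂ φ.π (φ.ψ p)) with hT
  set c := (InnerProductSpace.toDual ℂ (Cn N)).symm T with hc
  have hnΔ : ‖Δc‖ ≤ 2 * ‖Δ‖ := by
    refine ContinuousLinearMap.opNorm_le_bound _ (by positivity) fun v => ?_
    refine (Complex.norm_le_abs_re_add_abs_im _).trans ?_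
    have e1 : (Δc v).re = Δ v := StrongDual.re_extendRCLike_apply (𝕜 := ℂ) Δ v
    have e2 : (Δc v).im = -Δ (Complex.I • v) := StrongDual.im_extendRCLike_apply (𝕜 := ℂ) Δ v
    rw [e1, e2, abs_neg]
    have b1 := Δ.le_opNorm v
    have b2 := Δ.le_opNorm (Complex.I • v)
    rw [norm_smul, Complex.norm_I, one_mul] at b2
    rw [Real.norm_eq_abs] at b1 b2
    linarith
  refine ⟨c, ?_, fun v => ?_⟩
  · rw [hc, LinearIsometryEquiv.norm_map]
    exact (ContinuousLinearMap.opNorm_comp_le _ _).trans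
      (mul_le_mul_of_nonneg_right hnΔ (norm_nonneg _))
  · rw [pair_apply, hc, InnerProductSpace.toDual_symm_apply]
    have hid : fderiv ℂ φ.π (φ.ψ p) (fderiv ℂ φ.ψ p v) = v := by
      have hB := φ.isOpen_B.mem_nhds (φ.maps_ψ p hp).2
      have h1 : HasFDerivAt (fun y => φ.π (φ.ψ y))
          ((fderiv ℂ φ.π (φ.ψ p)).comp (fderiv ℂ φ.ψ p)) p :=
        (φ.diff_π.differentiableAt hB).hasFDerivAt.comp p
          (φ.diff_ψ.differentiableAt (φ.isOpen_W.mem_nhds hp)).hasFDerivAt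
      have h2 : HasFDerivAt (fun y => φ.π (φ.ψ y)) (ContinuousLinearMap.id ℂ (Mod m k)) p :=
        (hasFDerivAt_id p).congr_of_eventuallyEq
          (eventually_of_mem (φ.isOpen_W.mem_nhds hp) fun y hy => φ.π_ψ y hy)
      exact congrArg (fun L : Mod m k →L[ℂ] Mod m k => L v) (h1.unique h2)
    rw [hT, ContinuousLinearMap.comp_apply, hid]
    exact StrongDual.re_extendRCLike_apply (𝕜 := ℂ) Δ v

theorem contDiffOn_lift (Q : Loc D m k) : ContDiffOn ℝ 2 (fun x => lift Q.h x 0) Q.S := by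
  simp only [lift_eq, add_zero]
  exact (liftL m k).contDiff.comp_contDiffOn
    (contDiffOn_id.prodMk (Q.smooth_h.of_le (by norm_num)))

theorem hasFDerivAt_lift (Q : Loc D m k) {x : Cn m × Rn k} (hx : x ∈ Q.S) :
    HasFDerivAt (fun x => lift Q.h x 0) (tmap (fderiv ℝ Q.h x)) x := by
  simp only [lift_eq, add_zero]
  exact (liftL m k).hasFDerivAt.comp x ((hasFDerivAt_id x).prodMk
    ((Q.smooth_h.contDiffAt (Q.isOpen_S.mem_nhds hx)).differentiableAt (by norm_num)).hasFDerivAt)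

theorem hasFDerivAt_pt (Q : Loc D m k) {x : Cn m × Rn k} (hx : x ∈ Q.S) :
    HasFDerivAt Q.pt (((fderiv ℂ Q.ψ (lift Q.h x 0)).restrictScalars ℝ).comp
      (tmap (fderiv ℝ Q.h x))) x :=
  ((Q.diff_ψ.differentiableAt (Q.isOpen_W.mem_nhds (Q.edge_W x hx))).hasFDerivAt.restrictScalars
    ℝ).comp x (hasFDerivAt_lift Q hx)

/-- Near a strict maximiser of a stable family every point is a maximiser in `k` independent
ways. -/
theorem peak_window (Q : Loc D m k) {P₁ : MvPolynomial (Fin N) ℂ} {e δ : ℝ} (hδ : 0 < δ)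
    {a : Cn N} {C : ℝ} (hC : ∀ y ∈ Q.W, ∀ y' ∈ Q.W, ‖y - y'‖ ≤ C * ‖Q.ψ y - Q.ψ y'‖)
    (h0 : ∀ y ∈ closure D.U, pf P₁ e a y ≤ pf P₁ e a (Q.pt 0) - δ * ‖y - Q.pt 0‖ ^ 2)
    (hedge : ∀ x ∈ Q.S, Q.pt x ∈ closure D.U)
    (hstab : ∀ r > 0, ∀ᶠ b in 𝓝 a,
      ∃ x ∈ Q.S ∩ ball 0 r, IsPeak P₁ D e b (Q.pt x)) :
    ∀ᶠ x in 𝓝 (0 : Cn m × Rn k), x ∈ Q.S ∧ ∃ b : Fin k → Cn N,
      (∀ l, IsPeak P₁ D e (b l) (Q.pt x)) ∧ LinearIndependent ℂ
        fun l => fderiv ℂ (fun y => pG P₁ e (b l) (Q.pt x) (Q.ψ y)) (lift Q.h x 0) := by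
  set F : Mod m k → ℝ := fun y => pf P₁ e a (Q.ψ y) with hF
  have hFC : ContDiffOn ℝ 2 F Q.W :=
    (contDiff_pf P₁ e a).comp_contDiffOn ((contDiffOn_of_holo Q.isOpen_W Q.diff_ψ 2).restrict_scalars ℝ)
  have hγC : ContDiffOn ℝ 2 Q.pt Q.S :=
    ((contDiffOn_of_holo Q.isOpen_W Q.diff_ψ 2).restrict_scalars ℝ).comp (contDiffOn_lift Q)
      fun x hx => Q.edge_W x hx
  have hgC : ContDiffOn ℝ 2 (fun x => F (lift Q.h x 0)) Q.S :=
    hFC.comp (contDiffOn_lift Q) fun x hx => Q.edge_W x hx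
  have hS0 := Q.isOpen_S.mem_nhds Q.zero_mem_S
  have hγc : ContinuousAt Q.pt 0 := (hγC.continuousOn).continuousAt hS0
  set C₁ := ‖baseL m k‖ * max C 0 + 1 with hC₁
  have hC₁0 : 0 < C₁ := by positivity
  -- nearby points of the window are strictly below
  have hmax : ∀ᶠ v in 𝓝 (0 : Cn m × Rn k),
      F (lift Q.h v 0) ≤ F (lift Q.h 0 0) - δ / C₁ ^ 2 * ‖v‖ ^ 2 := by
    filter_upwards [hS0] with v hv
    have hle : ‖v‖ ≤ C₁ * ‖Q.pt v - Q.pt 0‖ := by
      have h1 := hC _ (Q.edge_W v hv) _ (Q.edge_W 0 Q.zero_mem_S)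
      have h2 : v = baseL m k (lift Q.h v 0 - lift Q.h 0 0) := by
        rw [map_sub, baseL_lift, baseL_lift, sub_zero]
      calc ‖v‖ ≤ ‖baseL m k‖ * ‖lift Q.h v 0 - lift Q.h 0 0‖ := by
            conv_lhs => rw [h2]
            exact (baseL m k).le_opNorm _
        _ ≤ ‖baseL m k‖ * (max C 0 * ‖Q.pt v - Q.pt 0‖) :=
            mul_le_mul_of_nonneg_left (h1.trans (mul_le_mul_of_nonneg_right (le_max_left _ _)
              (norm_nonneg _))) (norm_nonneg _)
        _ ≤ C₁ * ‖Q.pt v - Q.pt 0‖ := by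
            rw [← mul_assoc]
            exact mul_le_mul_of_nonneg_right (by rw [hC₁]; linarith) (norm_nonneg _)
    have h3 := h0 _ (hedge v hv)
    have h4 : δ / C₁ ^ 2 * ‖v‖ ^ 2 ≤ δ * ‖Q.pt v - Q.pt 0‖ ^ 2 := by
      rw [div_mul_eq_mul_div, div_le_iff₀ (by positivity)]
      have := pow_le_pow_left₀ (norm_nonneg v) hle 2
      rw [mul_pow] at this
      nlinarith [mul_le_mul_of_nonneg_left this hδ.le]
    show pf P₁ e a (Q.pt v) ≤ pf P₁ e a (Q.pt 0) - _
    linarith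
  obtain ⟨r₀, hr₀, η₀, hη₀, hrS₀, hcrit⟩ :=
    critical_is_max Q.isOpen_S Q.zero_mem_S hgC hγC (by positivity) hmax
  -- derivatives along the window
  have hFd : ∀ x ∈ Q.S, HasFDerivAt F (fderiv ℝ F (lift Q.h x 0)) (lift Q.h x 0) := fun x hx =>
    ((hFC.contDiffAt (Q.isOpen_W.mem_nhds (Q.edge_W x hx))).differentiableAt two_ne_zero).hasFDerivAt
  have hgd : ∀ x ∈ Q.S, HasFDerivAt (fun x => F (lift Q.h x 0))
      ((fderiv ℝ F (lift Q.h x 0)).comp (tmap (fderiv ℝ Q.h x))) x := fun x hx =>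
    HasFDerivAt.comp (g := F) (f := fun x => lift Q.h x 0) x (hFd x hx) (hasFDerivAt_lift Q hx)
  -- critical points of nearby members are maximisers
  obtain ⟨ε, hε, hpeak⟩ : ∃ ε > 0, ∀ c : Cn N, ‖c‖ < ε → ∀ x ∈ ball (0 : Cn m × Rn k) r₀,
      (fderiv ℝ F (lift Q.h x 0) + (pair c).comp
        ((fderiv ℂ Q.ψ (lift Q.h x 0)).restrictScalars ℝ)).comp (tmap (fderiv ℝ Q.h x)) = 0 →
      IsPeak P₁ D e (a + c) (Q.pt x) := by
    obtain ⟨ε, hε, hs⟩ := Metric.eventually_nhds_iff.1 (hstab r₀ hr₀)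
    refine ⟨min ε η₀, lt_min hε hη₀, fun c hc x hx hcr => ⟨hedge x (hrS₀ hx), fun y hy => ?_⟩⟩
    obtain ⟨x', hx', hpk⟩ := hs (show dist (a + c) a < ε by
      simpa using hc.trans_le (min_le_left _ _))
    refine (hpk.2 y hy).trans ?_
    have hL : ‖pair c‖ < η₀ := (norm_pair_le c).trans_lt (hc.trans_le (min_le_right _ _))
    have h := hcrit _ hL x hx (by
      rw [(hgd x (hrS₀ hx)).fderiv, (hasFDerivAt_pt Q (hrS₀ hx)).fderiv]
      rw [ContinuousLinearMap.add_comp] at hcr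
      simpa [ContinuousLinearMap.comp_assoc] using hcr) x' hx'.2
    rw [pf_add, pf_add]
    exact h
  -- the conormal of the centre
  set p₀ := lift Q.h 0 0
  set ν₀ : Rn k := (InnerProductSpace.toDual ℝ (Rn k)).symm
    ((fderiv ℝ F p₀).comp ((liftL m k).comp (ContinuousLinearMap.inr ℝ (Cn m × Rn k) (Rn k))))
    with hν₀
  have hρ0 : conormal (fderiv ℝ Q.h 0) ν₀ = fderiv ℝ F p₀ := by
    have hg0 : fderiv ℝ (fun x => F (lift Q.h x 0)) 0 = 0 :=
      IsLocalMax.fderiv_eq_zero (hmax.mono fun v hv => hv.trans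
        (by nlinarith [mul_nonneg (div_nonneg hδ.le (sq_nonneg C₁)) (sq_nonneg ‖v‖)]))
    rw [(hgd 0 Q.zero_mem_S).fderiv, Q.dh_zero] at hg0
    refine ContinuousLinearMap.ext fun p => ?_
    rw [conormal_apply, Q.dh_zero, _root_.zero_apply, sub_zero, hν₀,
      InnerProductSpace.toDual_symm_apply]
    conv_rhs => rw [← lift_base_height p, show ((baseL m k p, heightL m k p) :
      (Cn m × Rn k) × Rn k) = (baseL m k p, 0) + (0, heightL m k p) by simp, map_add, map_add]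
    have h1 := congrArg (fun L : Cn m × Rn k →L[ℝ] ℝ => L (baseL m k p)) hg0
    simp only [tmap, ContinuousLinearMap.comp_apply, ContinuousLinearMap.prod_apply,
      ContinuousLinearMap.id_apply, _root_.zero_apply] at h1
    rw [h1, zero_add]
    simp
  set Mπ := ‖fderiv ℂ Q.π (Q.pt 0)‖ + 1 with hMπ
  set K₁ := 2 * (‖heightL m k‖ + ‖baseL m k‖) * Mπ with hK₁
  obtain ⟨d, hd, hdK, hdν⟩ : ∃ d > 0, K₁ * d < ε / 2 ∧ (∑ l, ν₀ l) + d ≠ 0 := by
    have hK : 0 ≤ K₁ := by positivity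
    set d := ε / (2 * (K₁ + 1))
    have hd : 0 < d := by positivity
    have hKd : K₁ * d < ε / 2 := by
      rw [show K₁ * d = K₁ / (K₁ + 1) * (ε / 2) by simp only [d]; field_simp]
      exact mul_lt_of_lt_one_left (half_pos hε) ((div_lt_one (by positivity)).2 (by linarith))
    by_cases h : (∑ l, ν₀ l) + d = 0
    · exact ⟨d / 2, half_pos hd, by nlinarith, fun h' => by linarith⟩
    · exact ⟨d, hd, hKd, h⟩
  -- the defect is small near the centre
  set Δ₀ := fun x => conormal (fderiv ℝ Q.h x) ν₀ - fderiv ℝ F (lift Q.h x 0) with hΔ₀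
  have hΔc : ContinuousAt Δ₀ 0 := by
    refine ContinuousAt.sub ?_ ?_
    · simp only [conormal]
      exact continuousAt_const.clm_comp (continuousAt_const.sub
        (((Q.smooth_h.contDiffAt hS0).fderiv_right (m := 2) (by norm_num)).continuousAt.clm_comp
          continuousAt_const))
    · have h1 : ContinuousAt (fderiv ℝ F) p₀ :=
        ((hFC.contDiffAt (Q.isOpen_W.mem_nhds (Q.edge_W 0 Q.zero_mem_S))).fderiv_right
          (m := 1) (by norm_num)).continuousAt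
      exact h1.comp (f := fun x => lift Q.h x 0) (Q.continuousAt_lift Q.zero_mem_S)
  have hπc : ContinuousAt (fun x => ‖fderiv ℂ Q.π (Q.pt x)‖) 0 :=
    (((Surface.continuousOn_fderiv Q.isOpen_B Q.diff_π).continuousAt (Q.isOpen_B.mem_nhds
      (Q.maps_ψ _ (Q.edge_W 0 Q.zero_mem_S)).2)).comp (f := Q.pt) hγc).norm
  have hev1 : ∀ᶠ x in 𝓝 (0 : Cn m × Rn k), 2 * Mπ * ‖Δ₀ x‖ < ε / 2 := by
    refine (hΔc.norm.const_mul (2 * Mπ)).eventually (gt_mem_nhds ?_)
    simp only [hΔ₀, hρ0, p₀, sub_self, norm_zero, mul_zero]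
    positivity
  filter_upwards [ball_mem_nhds (0 : Cn m × Rn k) hr₀, hev1,
    hπc.eventually (gt_mem_nhds (show ‖fderiv ℂ Q.π (Q.pt 0)‖ < Mπ by rw [hMπ]; linarith))]
    with x hx hx1 hxπ
  have hxS := hrS₀ hx
  refine ⟨hxS, ?_⟩
  set A := fderiv ℝ Q.h x
  have hA : ‖A‖ ≤ 1 / 4 := Q.small_h x hxS
  set ν : Fin k → Rn k := fun l => ν₀ + d • EuclideanSpace.single l (1 : ℝ) with hν
  choose c hcn hcΔ using fun l => exists_pair Q.toChart (Q.edge_W x hxS)
    (conormal A (ν l) - fderiv ℝ F (lift Q.h x 0))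
  have hnorm : ∀ l, ‖c l‖ < ε := by
    intro l
    have h1 : ‖conormal A (ν l) - fderiv ℝ F (lift Q.h x 0)‖ ≤
        ‖Δ₀ x‖ + d * (‖heightL m k‖ + ‖baseL m k‖) := by
      rw [hν, conormal_add, add_sub_right_comm]
      refine (norm_add_le _ _).trans (add_le_add le_rfl ((norm_conormal_le hA _).trans_eq ?_))
      simp [norm_smul, abs_of_pos hd]
    refine (hcn l).trans_lt ?_
    calc 2 * ‖conormal A (ν l) - fderiv ℝ F (lift Q.h x 0)‖ * ‖fderiv ℂ Q.π (Q.ψ (lift Q.h x 0))‖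
        ≤ 2 * (‖Δ₀ x‖ + d * (‖heightL m k‖ + ‖baseL m k‖)) * Mπ :=
          mul_le_mul (by linarith) hxπ.le (norm_nonneg _) (by positivity)
      _ = 2 * Mπ * ‖Δ₀ x‖ + K₁ * d := by rw [hK₁]; ring
      _ < ε := by linarith
  have hderiv : ∀ l, HasFDerivAt (fun y => pf P₁ e (a + c l) (Q.ψ y))
      (conormal A (ν l)) (lift Q.h x 0) := by
    intro l
    have h := (hFd x hxS).add ((pair (c l)).hasFDerivAt.comp (lift Q.h x 0)
      ((Q.diff_ψ.differentiableAt (Q.isOpen_W.mem_nhds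
        (Q.edge_W x hxS))).hasFDerivAt.restrictScalars ℝ))
    refine (h.congr_of_eventuallyEq (Eventually.of_forall fun y => ?_)).congr_fderiv ?_
    · simp [hF, pf_add, pair_apply]
    · refine ContinuousLinearMap.ext fun v => ?_
      simp [hcΔ l v]
  refine ⟨fun l => a + c l, fun l => hpeak (c l) (hnorm l) x hx ?_, ?_⟩
  · have h : fderiv ℝ F (lift Q.h x 0) + (pair (c l)).comp
        ((fderiv ℂ Q.ψ (lift Q.h x 0)).restrictScalars ℝ) = conormal A (ν l) := by
      refine ContinuousLinearMap.ext fun v => ?_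
      simp [hcΔ l v]
    rw [h]
    exact conormal_comp_tmap A (ν l)
  · refine complex_indep hA (linearIndependent_shift hd.ne' ν₀ hdν) fun l v => ?_
    have hre := re_fderiv_pG P₁ e (a + c l) Q.isOpen_W Q.diff_ψ (Q.edge_W x hxS) v
    rw [(hderiv l).fderiv] at hre
    exact hre

end

end Vale.Agent.P274.Full.PatchAux
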