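import Vale.Agent.P274.Full.Stmts
import Vale.Agent.P274.Full.Patch.Orbit
import Vale.Agent.P274.Full.Patch.Window

/-!
A generic piece of the frontier with peak functions at all its points, and smoothness of the
domain.
-/

open Filter Metric Set Function Topology

namespace Vale.Agent.P274.Full.PatchAux

noncomputable section

variable {N m k : ℕ} {D : CDom N}

theorem pt_zero (Q : Loc D m k) : Q.pt 0 = Q.ψ 0 := by
  rw [Loc.pt, lift_eq, Q.h_zero, add_zero, Prod.mk_zero_zero, map_zero]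

/-- A piece with a smaller window. -/
def window (P : Loc D m k) (ρ : ℝ) (hρ : 0 < ρ)
    (hsub : rcBase ⁻¹' box (rcBase (0 : Cn m × Rn k)) ρ ⊆ P.S) : Loc D m k :=
  { P with
    S := rcBase ⁻¹' box (rcBase (0 : Cn m × Rn k)) ρ
    isOpen_S := (isOpen_box _ _).preimage continuous_rcBase
    zero_mem_S := fun i => by simp [hρ]
    sa_h := by
      refine (P.sa_h.inter ((SA.box (rcBase (0 : Cn m × Rn k)) ρ).reindex
        (Sum.inl : (Fin m ⊕ Fin m) ⊕ Fin k → (((Fin m ⊕ Fin m) ⊕ Fin k) ⊕ Fin k)))).congr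
        fun y => ⟨?_, ?_⟩
      · rintro ⟨x, hx, rfl⟩
        refine ⟨⟨x, hsub hx, rfl⟩, ?_⟩
        show (Sum.elim (rcBase x) _) ∘ Sum.inl ∈ box (rcBase 0) ρ
        rw [Sum.elim_comp_inl]
        exact hx
      · rintro ⟨⟨x, hx, rfl⟩, hbox⟩
        rw [mem_ofPred_eq, Sum.elim_comp_inl] at hbox
        exact ⟨x, hbox, rfl⟩
    smooth_h := P.smooth_h.mono hsub
    small_h := fun x hx => P.small_h x (hsub hx)
    edge_W := fun x hx => P.edge_W x (hsub hx) }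

theorem tendsto_peak {P₁ : MvPolynomial (Fin N) ℂ} {e δ : ℝ} (hδ : 0 < δ) {a q : Cn N}
    (hq : q ∈ closure D.U)
    (h0 : ∀ y ∈ closure D.U, pf P₁ e a y ≤ pf P₁ e a q - δ * ‖y - q‖ ^ 2)
    {Nq : Set (Cn N)} (hN : Nq ∈ 𝓝 q) :
    ∀ᶠ b in 𝓝 a, ∀ y, IsPeak P₁ D e b y → y ∈ Nq := by
  obtain ⟨η, hη, hηN⟩ := Metric.mem_nhds_iff.1 hN
  filter_upwards [ball_mem_nhds a (mul_pos hδ hη)] with b hb y hy
  refine hηN (mem_ball_iff_norm.2 ?_)
  have h1 := hy.2 q hq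
  have h2 := h0 y hy.1
  rw [show b = a + (b - a) by abel, pf_add, pf_add] at h1
  have h3 : (inner ℂ (b - a) (y - q) : ℂ).re =
      (inner ℂ (b - a) y : ℂ).re - (inner ℂ (b - a) q : ℂ).re := by
    rw [inner_sub_right]; simp
  have h4 : (inner ℂ (b - a) (y - q) : ℂ).re ≤ ‖b - a‖ * ‖y - q‖ :=
    (Complex.re_le_norm _).trans (norm_inner_le_norm _ _)
  have hb' : ‖b - a‖ < δ * η := by rwa [← mem_ball_iff_norm]
  by_contra hge
  rw [not_lt] at hge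
  have h5 : δ * η * ‖y - q‖ ≤ δ * ‖y - q‖ ^ 2 := by
    rw [sq, ← mul_assoc]
    exact mul_le_mul_of_nonneg_right (mul_le_mul_of_nonneg_left hge hδ.le) (norm_nonneg _)
  have h6 : ‖b - a‖ * ‖y - q‖ < δ * η * ‖y - q‖ :=
    mul_lt_mul_of_pos_right hb' (hη.trans_le hge)
  linarith

end

end Vale.Agent.P274.Full.PatchAux

namespace Vale.Agent.P274.Full

open PatchAux

noncomputable section

/-- The domain is smooth and has a generic edge with peak functions. -/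
theorem patch : SAProjStmt → AlgStmt → PieceStmt → TautStmt → PatchStmt := by
  intro _ hAlg hPiece _ N D
  rcases hAlg N D with hs | ⟨n, P₀, hE⟩
  · exact Or.inl hs
  obtain ⟨P₁, h10, h1U, Φ, hΦ, hΦsub, hcov⟩ := hPiece N D n P₀ hE
  obtain ⟨m, k, P, K, e, a, hmk, -, hKS, hPf, he, hB⟩ :=
    exists_peak_piece hE h10 h1U Φ hΦ hΦsub hcov
  obtain ⟨x₀, hx₀K, hpk₀, hne₀⟩ := hB.self_of_nhds
  have hNb : {y : Cn N | pe P₁ y ≠ 0} ∈ 𝓝 (P.pt x₀) :=
    (isOpen_ne_fun (continuous_pe P₁) continuous_const).mem_nhds hne₀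
  obtain ⟨Q, C, hQ0, hQsub, hQne, hQC, hQev⟩ := P.recenter (hKS hx₀K) hNb
  set q₀ := P.pt x₀
  replace hpk₀ : IsPeak P₁ D e a q₀ := hpk₀
  -- a strict maximiser
  obtain ⟨δ, hB₁, hδe, hδ⟩ : ∃ δ : ℝ, (∀ᶠ p : ℝ × Cn N in 𝓝 (e - δ, a + (2 * δ : ℂ) • q₀),
      ∃ x ∈ K, IsPeak P₁ D p.1 p.2 (P.ψ (lift P.h x 0)) ∧ pe P₁ (P.ψ (lift P.h x 0)) ≠ 0) ∧
      δ < e ∧ 0 < δ := by
    have hc : Tendsto (fun δ : ℝ => (e - δ, a + (2 * δ : ℂ) • q₀)) (𝓝[>] (0 : ℝ)) (𝓝 (e, a)) := by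
      have h := ((continuous_const (y := e)).sub continuous_id).prodMk
        ((continuous_const (y := a)).add
          (((continuous_const (y := (2 : ℂ))).mul Complex.continuous_ofReal).smul
            (continuous_const (y := q₀))))
      simpa using (h.tendsto (0 : ℝ)).mono_left (nhdsWithin_le_nhds (s := Ioi (0 : ℝ)))
    exact ((hc.eventually hB.eventually_nhds).and
      ((Filter.Eventually.filter_mono nhdsWithin_le_nhds (eventually_lt_nhds he)).and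
        self_mem_nhdsWithin)).exists
  set e₁ := e - δ with he₁
  set a₁ := a + (2 * δ : ℂ) • q₀
  have he₁0 : 0 < e₁ := by linarith
  have h0 : ∀ y ∈ closure D.U, pf P₁ e₁ a₁ y ≤ pf P₁ e₁ a₁ q₀ - δ * ‖y - q₀‖ ^ 2 := fun y hy => by
    have := hpk₀.2 y hy
    simp only [he₁, a₁, pf_shift, sub_self, norm_zero]
    linarith
  have hq₀ : IsPeak P₁ D e₁ a₁ q₀ :=
    ⟨hpk₀.1, fun y hy => (h0 y hy).trans (by nlinarith [sq_nonneg ‖y - q₀‖])⟩
  have hQ00 : Q.pt 0 = q₀ := by rw [pt_zero, hQ0]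
  have hfr : ∀ x ∈ Q.S, Q.pt x ∈ closure D.U \ D.U := fun x hx => hPf (hQsub ⟨x, hx, rfl⟩)
  have hstab : ∀ r > 0, ∀ᶠ b in 𝓝 a₁, ∃ x ∈ Q.S ∩ ball 0 r, IsPeak P₁ D e₁ b (Q.pt x) := by
    intro r hr
    have hB' : ∀ᶠ b in 𝓝 a₁, ∃ x ∈ K, IsPeak P₁ D e₁ b (P.ψ (lift P.h x 0)) ∧
        pe P₁ (P.ψ (lift P.h x 0)) ≠ 0 :=
      ((Continuous.prodMk (continuous_const (y := e₁)) continuous_id).tendsto a₁).eventually hB₁
    have hq0B : q₀ ∈ Q.B := hQ0 ▸ (Q.maps_ψ 0 Q.zero_mem).2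
    have hbase : ContinuousAt (fun z => baseL m k (Q.π z)) q₀ :=
      (baseL m k).continuous.continuousAt.comp (Q.continuousAt_π hq0B)
    have hb0 : baseL m k (Q.π q₀) = 0 := by rw [← hQ0, Q.π_ψ 0 Q.zero_mem, map_zero]
    have hnear := tendsto_peak hδ hpk₀.1 h0
      (inter_mem hQev (hbase.preimage_mem_nhds
        (t := ball (0 : Cn m × Rn k) r) (by rw [hb0]; exact ball_mem_nhds _ hr)))
    filter_upwards [hB', hnear] with b hb hbN
    obtain ⟨x, hx, hpk, -⟩ := hb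
    obtain ⟨hin, hball⟩ := hbN _ hpk
    obtain ⟨x', hx', hxx⟩ := hin ⟨x, hKS hx, rfl⟩
    replace hxx : Q.ψ (lift Q.h x' 0) = P.ψ (lift P.h x 0) := hxx
    refine ⟨x', ⟨hx', ?_⟩, ?_⟩
    · rw [mem_preimage, ← hxx, Q.π_ψ _ (Q.edge_W x' hx'), baseL_lift] at hball
      exact hball
    · show IsPeak P₁ D e₁ b (Q.ψ (lift Q.h x' 0))
      rw [hxx]
      exact hpk
  have hwin := peak_window Q hδ hQC (by rw [hQ00]; exact h0) (fun x hx => (hfr x hx).1) hstab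
  obtain ⟨ρ, hρ, hρsub⟩ := exists_box_subset (rcBaseL m k) rcBase_injective (0 : Cn m × Rn k) hwin
  have hsub : rcBase ⁻¹' box (rcBase (0 : Cn m × Rn k)) ρ ⊆ Q.S := fun x hx => (hρsub hx).1
  set C₁ := max C 1
  have hC₁ : 0 < C₁ := lt_max_of_lt_right one_pos
  have hne : ∀ x ∈ Q.S, MvPolynomial.eval (fun i => Q.pt x i) P₀ ≠ 0 := fun x hx h =>
    hQne _ (Q.edge_W x hx) (h10 _ h)
  subst hmk
  refine Or.inr ⟨m, k,
    { toLoc := window Q ρ hρ hsub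
      edge_frontier := fun x hx => hfr x (hsub hx)
      peak := fun x hx => ?_
      orbit := fun x hx g b b₀ hb₀ hbU hb hlim L hL hLc => ?_ },
    smooth_of_peak hE he₁0 hq₀ (fun h => hne₀ (h10 _ h))⟩
  · obtain ⟨-, b, hb, hind⟩ := hρsub hx
    refine ⟨fun l y => pG P₁ e₁ (b l) (Q.pt x) (Q.ψ y), e₁ / C₁ ^ 2, by positivity, fun l =>
      (differentiable_pG P₁ e₁ (b l) _).comp_differentiableOn Q.diff_ψ, fun l => pG_self P₁ _ _ _,
      fun l y hy hyU => ?_, hind⟩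
    refine ((hb l).re_le (subset_closure hyU)).trans ?_
    show -e₁ * ‖Q.ψ y - Q.pt x‖ ^ 2 ≤ -(e₁ / C₁ ^ 2) * ‖y - lift Q.h x 0‖ ^ 2
    have h : ‖y - lift Q.h x 0‖ ≤ C₁ * ‖Q.ψ y - Q.pt x‖ :=
      (hQC y hy _ (Q.edge_W x (hsub hx))).trans
        (mul_le_mul_of_nonneg_right (le_max_left _ _) (norm_nonneg _))
    rw [neg_mul, neg_mul, neg_le_neg_iff, div_mul_eq_mul_div, div_le_iff₀ (by positivity)]
    have := pow_le_pow_left₀ (norm_nonneg _) h 2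
    rw [mul_pow] at this
    nlinarith [mul_le_mul_of_nonneg_left this he₁0.le]
  · obtain ⟨-, c, hc, -⟩ := hρsub hx
    exact (orbit_uniform (g := g) hE he₁0 (hc ⟨0, Q.k_pos⟩) (hne x (hsub hx)) hb₀ hbU hb hlim).2
      L hL hLc

end

end Vale.Agent.P274.Full
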