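import Vale.Agent.P274.Full.Taut.Taut
import Mathlib.Analysis.Complex.AbsMax
import Mathlib.Analysis.SpecialFunctions.Exp
import Mathlib.Analysis.SpecialFunctions.ExpDeriv
import Mathlib.Analysis.InnerProductSpace.Dual
import Mathlib.Topology.Baire.CompleteMetrizable
import Mathlib.Topology.Compactness.SigmaCompact

/-!
The family of functions maximised on the closure of the domain, the peak functions they give at
their maximisers, and a family of maximisers in one piece of the frontier.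
-/

open Filter Metric Set Function Topology

namespace Vale.Agent.P274.Full.PatchAux

noncomputable section

variable {N : ℕ} {D : CDom N} (P₁ : MvPolynomial (Fin N) ℂ)

/-- A polynomial as a function on coordinate space. -/
def pe (z : Cn N) : ℂ := MvPolynomial.eval (fun i => z i) P₁

/-- The function to maximise. -/
def pf (e : ℝ) (a z : Cn N) : ℝ := ‖pe P₁ z‖ ^ 2 + e * ‖z‖ ^ 2 + (inner ℂ a z : ℂ).re

/-- The peak function at a maximiser. -/
def pG (e : ℝ) (a q z : Cn N) : ℂ :=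
  2 * (starRingEnd ℂ) (pe P₁ q) * (pe P₁ z - pe P₁ q) + 2 * (e : ℂ) * inner ℂ q (z - q) +
    inner ℂ a (z - q)

/-- `q` maximises on the closure of the domain. -/
def IsPeak (D : CDom N) (e : ℝ) (a q : Cn N) : Prop :=
  q ∈ closure D.U ∧ ∀ y ∈ closure D.U, pf P₁ e a y ≤ pf P₁ e a q

theorem differentiable_pe : Differentiable ℂ (pe P₁) := by
  induction P₁ using MvPolynomial.induction_on with
  | C c =>
    have : pe (MvPolynomial.C c : MvPolynomial (Fin N) ℂ) = fun _ => c := by funext z; simp [pe]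
    rw [this]
    exact differentiable_const c
  | add p q hp hq =>
    have : pe (p + q) = fun z => pe p z + pe q z := by funext z; simp [pe]
    rw [this]
    exact hp.add hq
  | mul_X p i hp =>
    have : pe (p * MvPolynomial.X i) = fun z => pe p z * z i := by funext z; simp [pe]
    rw [this]
    exact hp.mul (EuclideanSpace.proj (𝕜 := ℂ) i).differentiable

theorem continuous_pe : Continuous (pe P₁) := (differentiable_pe P₁).continuous

theorem differentiable_pG (e : ℝ) (a q : Cn N) : Differentiable ℂ (pG P₁ e a q) := by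
  have h1 : ∀ b : Cn N, Differentiable ℂ fun z => (inner ℂ b (z - q) : ℂ) := fun b =>
    (innerSL ℂ b).differentiable.comp (differentiable_id.sub_const q)
  exact ((((differentiable_pe P₁).sub_const _).const_mul _).add ((h1 q).const_mul _)).add (h1 a)

theorem continuous_pf (e : ℝ) (a : Cn N) : Continuous (pf P₁ e a) :=
  ((continuous_pe P₁).norm.pow 2).add ((continuous_const.mul (continuous_norm.pow 2)))
    |>.add (Complex.continuous_re.comp (continuous_const.inner continuous_id))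

theorem pf_sub (e : ℝ) (a q z : Cn N) :
    pf P₁ e a z - pf P₁ e a q =
      (pG P₁ e a q z).re + ‖pe P₁ z - pe P₁ q‖ ^ 2 + e * ‖z - q‖ ^ 2 := by
  have h1 : (inner ℂ a (z - q) : ℂ).re = (inner ℂ a z : ℂ).re - (inner ℂ a q : ℂ).re := by
    rw [inner_sub_right]; simp
  have h2 : ‖z - q‖ ^ 2 + 2 * (inner ℂ q (z - q) : ℂ).re = ‖z‖ ^ 2 - ‖q‖ ^ 2 := by
    have h := norm_add_sq (𝕜 := ℂ) q (z - q)
    rw [add_sub_cancel] at h
    simp only [RCLike.re_to_complex] at h
    linarith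
  have h3 : (2 * (starRingEnd ℂ) (pe P₁ q) * (pe P₁ z - pe P₁ q)).re + ‖pe P₁ z - pe P₁ q‖ ^ 2
      = ‖pe P₁ z‖ ^ 2 - ‖pe P₁ q‖ ^ 2 := by
    simp only [Complex.sq_norm, Complex.normSq_apply]
    simp
    ring
  have h4 : (2 * (e : ℂ) * inner ℂ q (z - q)).re = 2 * e * (inner ℂ q (z - q) : ℂ).re := by simp
  simp only [pf, pG, Complex.add_re, h4]
  linear_combination (-1 : ℝ) * h1 - e * h2 - h3

theorem pG_self (e : ℝ) (a q : Cn N) : pG P₁ e a q q = 0 := by simp [pG]

variable {P₁}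

theorem IsPeak.re_le {e : ℝ} {a q : Cn N} (h : IsPeak P₁ D e a q) {y : Cn N}
    (hy : y ∈ closure D.U) : (pG P₁ e a q y).re ≤ -e * ‖y - q‖ ^ 2 := by
  have := pf_sub P₁ e a q y
  nlinarith [h.2 y hy, sq_nonneg ‖pe P₁ y - pe P₁ q‖]

variable (P₁) in
theorem pf_shift (e δ : ℝ) (a q z : Cn N) :
    pf P₁ (e - δ) (a + (2 * δ : ℂ) • q) z = pf P₁ e a z - δ * ‖z - q‖ ^ 2 + δ * ‖q‖ ^ 2 := by
  have h : (inner ℂ q z : ℂ).re = (inner ℂ z q : ℂ).re := by
    rw [← inner_conj_symm, Complex.conj_re]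
  have h2 := norm_sub_sq (𝕜 := ℂ) z q
  simp only [RCLike.re_to_complex] at h2
  simp only [pf, inner_add_left, inner_smul_left, map_mul, map_ofNat, Complex.conj_ofReal,
    Complex.add_re, Complex.mul_re, Complex.re_ofNat, Complex.ofReal_re, Complex.im_ofNat,
    Complex.ofReal_im, Complex.mul_im, mul_zero, sub_zero, zero_mul, add_zero]
  linear_combination (2 * δ) * h + δ * h2

theorem pf_add (e : ℝ) (a b z : Cn N) :
    pf P₁ e (a + b) z = pf P₁ e a z + (inner ℂ b z : ℂ).re := by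
  simp only [pf, inner_add_left, Complex.add_re]; ring

/-- A maximiser in a smooth part of the domain does not exist. -/
theorem not_mem_U {n : ℕ} {P₀ : MvPolynomial (Fin N) ℂ} (hE : Exc D n P₀) {e : ℝ} (he : 0 < e)
    {a q : Cn N} (h : IsPeak P₁ D e a q)
    (hq : MvPolynomial.eval (fun i => q i) P₀ ≠ 0) : q ∉ D.U := by
  intro hqU
  have hqO := ((mem_inter_iff _ _ _).1 (D.U_eq ▸ hqU : q ∈ D.Z ∩ D.O))
  obtain ⟨φ, hφ⟩ := hE.chart q h.1 hqO.1 hq
  set v : Mod n 0 := (EuclideanSpace.single (⟨0, hE.pos⟩ : Fin n) (1 : ℂ), 0) with hv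
  have hσ : Differentiable ℂ fun t : ℂ => t • v := differentiable_id.smul_const v
  have hev : ∀ᶠ t in 𝓝 (0 : ℂ), t • v ∈ φ.W ∧ φ.ψ (t • v) ∈ D.U := by
    have h0 : Tendsto (fun t : ℂ => t • v) (𝓝 0) (𝓝 0) := by
      simpa using hσ.continuous.tendsto (0 : ℂ)
    have hO : ∀ᶠ x in 𝓝 (0 : Mod n 0), φ.ψ x ∈ D.O :=
      (φ.diff_ψ.continuousOn.continuousAt (φ.isOpen_W.mem_nhds φ.zero_mem)).preimage_mem_nhds
        (D.isOpen_O.mem_nhds (hφ.symm ▸ hqO.2))
    filter_upwards [h0.eventually (φ.isOpen_W.mem_nhds φ.zero_mem), h0.eventually hO] with t h1 h2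
    exact ⟨h1, D.mem_U_iff.2 ⟨(φ.maps_ψ _ h1).1, h2⟩⟩
  set f : ℂ → ℂ := fun t => Complex.exp (pG P₁ e a q (φ.ψ (t • v)))
  have hd : ∀ᶠ t in 𝓝 (0 : ℂ), DifferentiableAt ℂ f t := hev.mono fun t ht =>
    ((differentiable_pG P₁ e a q).differentiableAt.comp t
      ((φ.diff_ψ.differentiableAt (φ.isOpen_W.mem_nhds ht.1)).comp t hσ.differentiableAt)).cexp
  have hf0 : f 0 = 1 := by simp [f, hφ, pG_self]
  have hmax : IsLocalMax (norm ∘ f) 0 := hev.mono fun t ht => by
    simp only [comp_apply, hf0, norm_one]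
    simp only [f, Complex.norm_exp, Real.exp_le_one_iff]
    nlinarith [h.re_le (subset_closure ht.2), sq_nonneg ‖φ.ψ (t • v) - q‖]
  have hconst := Complex.eventually_eq_of_isLocalMax_norm hd hmax
  obtain ⟨t, ⟨ht, htc⟩, ht0⟩ :=
    ((((hev.and hconst).filter_mono nhdsWithin_le_nhds).and
      (eventually_mem_nhdsWithin (s := {(0 : ℂ)}ᶜ))).exists)
  have hre : (pG P₁ e a q (φ.ψ (t • v))).re = 0 := by
    have := congrArg norm htc
    rwa [hf0, norm_one, Complex.norm_exp, Real.exp_eq_one_iff] at this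
  have hy : φ.ψ (t • v) = q := by
    have := h.re_le (subset_closure ht.2)
    rw [hre] at this
    exact sub_eq_zero.1 (norm_eq_zero.1 (sq_eq_zero_iff.1
      (le_antisymm (nonpos_of_mul_nonpos_right (by linarith) he) (sq_nonneg _))))
  have h1 := φ.π_ψ _ ht.1
  rw [hy, ← hφ, φ.π_ψ _ φ.zero_mem] at h1
  rcases smul_eq_zero.1 h1.symm with h2 | h2
  · exact ht0 h2
  · simp [hv] at h2

/-- Parameters with a maximiser in one compact set of one piece form a neighbourhood. -/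
theorem exists_peak_piece {n : ℕ} {P₀ : MvPolynomial (Fin N) ℂ} (hE : Exc D n P₀)
    (h10 : ∀ z : Cn N, MvPolynomial.eval (fun i => z i) P₀ = 0 →
        MvPolynomial.eval (fun i => z i) P₁ = 0)
    (h1U : ∃ z ∈ D.U, MvPolynomial.eval (fun i => z i) P₁ ≠ 0) (Φ : ℕ → Set (Cn N))
    (hΦ : ∀ i, Φ i = ∅ ∨ ∃ (m k : ℕ) (P : Loc D m k), m + k = n ∧ Φ i = P.points)
    (hsub : ∀ i, Φ i ⊆ closure D.U \ D.U)
    (hcov : ∀ z ∈ closure D.U \ D.U, MvPolynomial.eval (fun i => z i) P₁ ≠ 0 → ∃ i, z ∈ Φ i) :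
    ∃ (m k : ℕ) (P : Loc D m k) (K : Set (Cn m × Rn k)) (e : ℝ) (a : Cn N), m + k = n ∧
      IsCompact K ∧ K ⊆ P.S ∧ P.points ⊆ closure D.U \ D.U ∧ 0 < e ∧
      ∀ᶠ p : ℝ × Cn N in 𝓝 (e, a), ∃ x ∈ K, IsPeak P₁ D p.1 p.2 (P.ψ (lift P.h x 0)) ∧
        pe P₁ (P.ψ (lift P.h x 0)) ≠ 0 := by
  have hcl : IsCompact (closure D.U) := D.bounded_U.isCompact_closure
  obtain ⟨R, hR1, hR⟩ : ∃ R, 0 < R ∧ ∀ z ∈ closure D.U, ‖z‖ ≤ R :=
    (isBounded_iff_forall_norm_le.1 hcl.isBounded).elim fun R hR =>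
      ⟨|R| + 1, by positivity, fun z hz => (hR z hz).trans (by linarith [le_abs_self R])⟩
  obtain ⟨z₀, hz₀, hz₀P⟩ := h1U
  have hM : 0 < ‖pe P₁ z₀‖ ^ 2 := pow_pos (norm_pos_iff.2 hz₀P) 2
  set M := ‖pe P₁ z₀‖ ^ 2
  set e₀ := M / (8 * R ^ 2)
  set ρ := M / (8 * R)
  have he₀ : 0 < e₀ := by positivity
  have hρ : 0 < ρ := by positivity
  set A : Set (ℝ × Cn N) := Ioo 0 (2 * e₀) ×ˢ ball 0 ρ
  have hA : IsOpen A := isOpen_Ioo.prod isOpen_ball
  -- maximisers avoid the zero set and the domain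
  have hgood : ∀ p ∈ A, ∀ q, IsPeak P₁ D p.1 p.2 q →
      q ∈ closure D.U \ D.U ∧ pe P₁ q ≠ 0 := by
    intro p hp q hq
    have hin : ∀ z ∈ closure D.U, |(inner ℂ p.2 z : ℂ).re| ≤ ρ * R := fun z hz =>
      (Complex.abs_re_le_norm _).trans ((norm_inner_le_norm _ _).trans
        (mul_le_mul (mem_ball_zero_iff.1 hp.2).le (hR z hz) (norm_nonneg _) hρ.le))
    have hne : pe P₁ q ≠ 0 := by
      intro h0
      have h1 := hq.2 z₀ (subset_closure hz₀)
      simp only [pf, h0, norm_zero] at h1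
      have h2 : p.1 * ‖q‖ ^ 2 ≤ 2 * e₀ * R ^ 2 :=
        mul_le_mul hp.1.2.le (pow_le_pow_left₀ (norm_nonneg _) (hR q hq.1) 2) (sq_nonneg _)
          (by positivity)
      have h3 : 2 * e₀ * R ^ 2 + 2 * (ρ * R) = M / 2 := by
        simp only [e₀, ρ]; field_simp; ring
      have h4 := abs_le.1 (hin q hq.1)
      have h5 := abs_le.1 (hin z₀ (subset_closure hz₀))
      have h6 := mul_nonneg hp.1.1.le (sq_nonneg ‖z₀‖)
      simp only [M] at h3 hM
      linarith
    exact ⟨⟨hq.1, not_mem_U hE hp.1.1 hq fun h => hne (h10 q h)⟩, hne⟩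
  -- compact sets of parameters exhausting the pieces
  have hsrc : ∀ i, ∃ Ks : ℕ → Set (Cn N), (∀ j, IsCompact (Ks j)) ∧ (⋃ j, Ks j) = Φ i ∧
      ∀ j, (Ks j).Nonempty → ∃ (m k : ℕ) (P : Loc D m k) (K : Set (Cn m × Rn k)), m + k = n ∧
        IsCompact K ∧ K ⊆ P.S ∧ P.points ⊆ closure D.U \ D.U ∧ Ks j = (fun x => P.ψ (lift P.h x 0)) '' K := by
    intro i
    rcases hΦ i with h | ⟨m, k, P, hmk, hP⟩
    · exact ⟨fun _ => ∅, fun _ => isCompact_empty, by simp [h], fun j hj => absurd hj (by simp)⟩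
    have : LocallyCompactSpace P.S := P.isOpen_S.locallyCompactSpace
    have hcont : ContinuousOn (fun x => P.ψ (lift P.h x 0)) P.S := by
      refine P.diff_ψ.continuousOn.comp ?_ fun x hx => P.edge_W x hx
      have hh : ContinuousOn P.h P.S := P.smooth_h.continuousOn
      refine continuousOn_fst.prodMk ?_
      refine (PiLp.continuous_toLp 2 _).comp_continuousOn (continuousOn_pi.2 fun l => ?_)
      have : (fun x : Cn m × Rn k => (⟨x.2 l, (P.h x + 0) l⟩ : ℂ)) = fun x =>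
          (Complex.ofReal (x.2 l)) + Complex.ofReal (P.h x l) * Complex.I := by
        funext x; apply Complex.ext <;> simp
      rw [this]
      fun_prop
    refine ⟨fun j => (fun x => P.ψ (lift P.h x 0)) '' (Subtype.val '' compactCovering P.S j),
      fun j => ((isCompact_compactCovering P.S j).image continuous_subtype_val).image_of_continuousOn
        (hcont.mono (Subtype.coe_image_subset _ _)), ?_, fun j _ => ⟨m, k, P, _, hmk,
        (isCompact_compactCovering P.S j).image continuous_subtype_val,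
        Subtype.coe_image_subset _ _, hP ▸ hsub i, rfl⟩⟩
    rw [← image_iUnion, ← image_iUnion, iUnion_compactCovering, image_univ,
      Subtype.range_coe, hP]
    rfl
  choose Ks hKsc hKsu hKsP using hsrc
  have hpfc : ∀ i j, IsClosed {p : ℝ × Cn N | ∃ q ∈ Ks i j, IsPeak P₁ D p.1 p.2 q} := by
    intro i j
    have hc : IsClosed {r : (ℝ × Cn N) × Ks i j | IsPeak P₁ D r.1.1 r.1.2 r.2.1} := by
      have : {r : (ℝ × Cn N) × Ks i j | IsPeak P₁ D r.1.1 r.1.2 r.2.1} =
          {r | r.2.1 ∈ closure D.U} ∩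
            ⋂ y ∈ closure D.U, {r | pf P₁ r.1.1 r.1.2 y ≤ pf P₁ r.1.1 r.1.2 r.2.1} := by
        ext r; simp [IsPeak]
      rw [this]
      refine (isClosed_closure.preimage (by fun_prop)).inter
        (isClosed_biInter fun y _ => isClosed_le ?_ ?_)
      · simp only [pf]
        exact ((continuous_const.add (continuous_fst.fst.mul continuous_const))).add
          (Complex.continuous_re.comp (continuous_fst.snd.inner continuous_const))
      · simp only [pf]
        exact ((((continuous_pe P₁).comp (continuous_subtype_val.comp continuous_snd)).norm.pow 2).add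
          (continuous_fst.fst.mul
            ((continuous_subtype_val.comp continuous_snd).norm.pow 2))).add
          (Complex.continuous_re.comp
            (continuous_fst.snd.inner (continuous_subtype_val.comp continuous_snd)))
    have : CompactSpace (Ks i j) := isCompact_iff_compactSpace.1 (hKsc i j)
    have himg := isClosedMap_fst_of_compactSpace _ hc
    convert himg using 1
    ext p
    simp only [mem_ofPred_eq, mem_image, Prod.exists, Subtype.exists]
    constructor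
    · rintro ⟨q, hq, h⟩; exact ⟨p.1, p.2, q, hq, h, rfl⟩
    · rintro ⟨e, a, q, hq, h, rfl⟩; exact ⟨q, hq, h⟩
  set F : Option (ℕ × ℕ) → Set (ℝ × Cn N) := fun o =>
    o.elim Aᶜ fun ij => {p | ∃ q ∈ Ks ij.1 ij.2, IsPeak P₁ D p.1 p.2 q}
  have hFc : ∀ o, IsClosed (F o) := by
    rintro (_ | ⟨i, j⟩)
    · exact hA.isClosed_compl
    · exact hpfc i j
  have hFu : (⋃ o, F o) = univ := by
    refine eq_univ_of_forall fun p => ?_
    by_cases hp : p ∈ A
    · obtain ⟨q, hqc, hqm⟩ := hcl.exists_isMaxOn ⟨z₀, subset_closure hz₀⟩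
        (continuous_pf P₁ p.1 p.2).continuousOn
      have hq : IsPeak P₁ D p.1 p.2 q := ⟨hqc, fun y hy => hqm hy⟩
      obtain ⟨hqf, hqne⟩ := hgood p hp q hq
      obtain ⟨i, hi⟩ := hcov q hqf hqne
      rw [← hKsu i] at hi
      obtain ⟨j, hj⟩ := mem_iUnion.1 hi
      exact mem_iUnion.2 ⟨some (i, j), q, hj, hq⟩
    · exact mem_iUnion.2 ⟨none, hp⟩
  have hAne : A.Nonempty := ⟨(e₀, 0), ⟨he₀, by linarith⟩, mem_ball_self hρ⟩
  obtain ⟨p₀, hp₀, hp₀A⟩ :=
    (dense_iUnion_interior_of_closed hFc hFu).inter_open_nonempty A hA hAne |>.imp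
      fun p hp => (⟨hp.2, hp.1⟩ : p ∈ (⋃ o, interior (F o)) ∧ p ∈ A)
  obtain ⟨o, ho⟩ := mem_iUnion.1 hp₀
  rcases o with _ | ⟨i, j⟩
  · exact absurd hp₀A (interior_subset ho)
  obtain ⟨q₀, hq₀, -⟩ := interior_subset (s := F (some (i, j))) ho
  obtain ⟨m, k, P, K, hmk, hKc, hKS, hPf, hK⟩ := hKsP i j ⟨q₀, hq₀⟩
  refine ⟨m, k, P, K, p₀.1, p₀.2, hmk, hKc, hKS, hPf, hp₀A.1.1, ?_⟩
  filter_upwards [isOpen_interior.mem_nhds ho, hA.mem_nhds hp₀A] with p hp hpA
  obtain ⟨q, hqK, hq⟩ := interior_subset (s := F (some (i, j))) hp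
  rw [hK] at hqK
  obtain ⟨x, hx, rfl⟩ := hqK
  exact ⟨x, hx, hq, (hgood p hpA _ hq).2⟩

end

end Vale.Agent.P274.Full.PatchAux
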